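import Vale.Agent.P088.R2.H31.EP.Cst

/-!
# P088, stage 3, EST': thresholds

`EvC.at_X f h`: a property `f q t` of the constants before `X` (fields of `q`) and `t = X` which
holds for `t` sufficiently large (small) holds for all suitably chosen constants. Later fields of
`q` are `0` in the conclusion: `f` must not use them. `NB_X c`: the function `c` of the constants
depends only on those before `X`.
-/

open Filter Topology Set

noncomputable section

namespace Vale.Agent.P088.R2.H31.EP

/-- The constants before `KT`. -/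
def Cst.b_KT (q : Cst) : Cst :=
  ⟨0, 0, 0, 0, 0, 0, 0, 0, 0, 0, 0, 0, 0, 0, 0, 0, 0, 0, 0, 0, 0, 0, 0⟩

/-- `f` depends only on the constants before `KT`. -/
def NB_KT {α : Type*} (f : Cst → α) : Prop := ∀ q, f q.b_KT = f q

theorem EvC.at_KT (f : Cst → ℝ → Prop) (h : ∀ q, ∀ᶠ t in atTop, f q t) :
    EvC fun q => f q.b_KT q.KT := by
  unfold EvC
  filter_upwards [h ⟨0, 0, 0, 0, 0, 0, 0, 0, 0, 0, 0, 0, 0, 0, 0, 0, 0, 0, 0, 0, 0, 0, 0⟩] with t ht
  refine Eventually.of_forall fun _ => ?_
  refine Eventually.of_forall fun _ => ?_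
  refine Eventually.of_forall fun _ => ?_
  refine Eventually.of_forall fun _ => ?_
  refine Eventually.of_forall fun _ => ?_
  refine Eventually.of_forall fun _ => ?_
  refine Eventually.of_forall fun _ => ?_
  refine Eventually.of_forall fun _ => ?_
  refine Eventually.of_forall fun _ => ?_
  refine Eventually.of_forall fun _ => ?_
  refine Eventually.of_forall fun _ => ?_
  refine Eventually.of_forall fun _ => ?_
  refine Eventually.of_forall fun _ => ?_
  refine Eventually.of_forall fun _ => ?_
  refine Eventually.of_forall fun _ => ?_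
  refine Eventually.of_forall fun _ => ?_
  refine Eventually.of_forall fun _ => ?_
  refine Eventually.of_forall fun _ => ?_
  refine Eventually.of_forall fun _ => ?_
  refine Eventually.of_forall fun _ => ?_
  refine Eventually.of_forall fun _ => ?_
  refine Eventually.of_forall fun _ => ?_
  exact ht

/-- The constants before `e₁`. -/
def Cst.b_e₁ (q : Cst) : Cst :=
  ⟨q.KT, 0, 0, 0, 0, 0, 0, 0, 0, 0, 0, 0, 0, 0, 0, 0, 0, 0, 0, 0, 0, 0, 0⟩

/-- `f` depends only on the constants before `e₁`. -/
def NB_e₁ {α : Type*} (f : Cst → α) : Prop := ∀ q, f q.b_e₁ = f q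

theorem EvC.at_e₁ (f : Cst → ℝ → Prop) (h : ∀ q, ∀ᶠ t in sml, f q t) :
    EvC fun q => f q.b_e₁ q.e₁ := by
  unfold EvC
  refine Eventually.of_forall fun x0 => ?_
  filter_upwards [h ⟨x0, 0, 0, 0, 0, 0, 0, 0, 0, 0, 0, 0, 0, 0, 0, 0, 0, 0, 0, 0, 0, 0, 0⟩] with t ht
  refine Eventually.of_forall fun _ => ?_
  refine Eventually.of_forall fun _ => ?_
  refine Eventually.of_forall fun _ => ?_
  refine Eventually.of_forall fun _ => ?_
  refine Eventually.of_forall fun _ => ?_
  refine Eventually.of_forall fun _ => ?_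
  refine Eventually.of_forall fun _ => ?_
  refine Eventually.of_forall fun _ => ?_
  refine Eventually.of_forall fun _ => ?_
  refine Eventually.of_forall fun _ => ?_
  refine Eventually.of_forall fun _ => ?_
  refine Eventually.of_forall fun _ => ?_
  refine Eventually.of_forall fun _ => ?_
  refine Eventually.of_forall fun _ => ?_
  refine Eventually.of_forall fun _ => ?_
  refine Eventually.of_forall fun _ => ?_
  refine Eventually.of_forall fun _ => ?_
  refine Eventually.of_forall fun _ => ?_
  refine Eventually.of_forall fun _ => ?_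
  refine Eventually.of_forall fun _ => ?_
  refine Eventually.of_forall fun _ => ?_
  exact ht

/-- The constants before `nm`. -/
def Cst.b_nm (q : Cst) : Cst :=
  ⟨q.KT, q.e₁, 0, 0, 0, 0, 0, 0, 0, 0, 0, 0, 0, 0, 0, 0, 0, 0, 0, 0, 0, 0, 0⟩

/-- `f` depends only on the constants before `nm`. -/
def NB_nm {α : Type*} (f : Cst → α) : Prop := ∀ q, f q.b_nm = f q

theorem EvC.at_nm (f : Cst → ℝ → Prop) (h : ∀ q, ∀ᶠ t in atTop, f q t) :
    EvC fun q => f q.b_nm q.nm := by
  unfold EvC
  refine Eventually.of_forall fun x0 => ?_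
  refine Eventually.of_forall fun x1 => ?_
  filter_upwards [h ⟨x0, x1, 0, 0, 0, 0, 0, 0, 0, 0, 0, 0, 0, 0, 0, 0, 0, 0, 0, 0, 0, 0, 0⟩] with t ht
  refine Eventually.of_forall fun _ => ?_
  refine Eventually.of_forall fun _ => ?_
  refine Eventually.of_forall fun _ => ?_
  refine Eventually.of_forall fun _ => ?_
  refine Eventually.of_forall fun _ => ?_
  refine Eventually.of_forall fun _ => ?_
  refine Eventually.of_forall fun _ => ?_
  refine Eventually.of_forall fun _ => ?_
  refine Eventually.of_forall fun _ => ?_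
  refine Eventually.of_forall fun _ => ?_
  refine Eventually.of_forall fun _ => ?_
  refine Eventually.of_forall fun _ => ?_
  refine Eventually.of_forall fun _ => ?_
  refine Eventually.of_forall fun _ => ?_
  refine Eventually.of_forall fun _ => ?_
  refine Eventually.of_forall fun _ => ?_
  refine Eventually.of_forall fun _ => ?_
  refine Eventually.of_forall fun _ => ?_
  refine Eventually.of_forall fun _ => ?_
  refine Eventually.of_forall fun _ => ?_
  exact ht

/-- The constants before `cK`. -/
def Cst.b_cK (q : Cst) : Cst :=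
  ⟨q.KT, q.e₁, q.nm, 0, 0, 0, 0, 0, 0, 0, 0, 0, 0, 0, 0, 0, 0, 0, 0, 0, 0, 0, 0⟩

/-- `f` depends only on the constants before `cK`. -/
def NB_cK {α : Type*} (f : Cst → α) : Prop := ∀ q, f q.b_cK = f q

theorem EvC.at_cK (f : Cst → ℝ → Prop) (h : ∀ q, ∀ᶠ t in sml, f q t) :
    EvC fun q => f q.b_cK q.cK := by
  unfold EvC
  refine Eventually.of_forall fun x0 => ?_
  refine Eventually.of_forall fun x1 => ?_
  refine Eventually.of_forall fun x2 => ?_
  filter_upwards [h ⟨x0, x1, x2, 0, 0, 0, 0, 0, 0, 0, 0, 0, 0, 0, 0, 0, 0, 0, 0, 0, 0, 0, 0⟩] with t ht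
  refine Eventually.of_forall fun _ => ?_
  refine Eventually.of_forall fun _ => ?_
  refine Eventually.of_forall fun _ => ?_
  refine Eventually.of_forall fun _ => ?_
  refine Eventually.of_forall fun _ => ?_
  refine Eventually.of_forall fun _ => ?_
  refine Eventually.of_forall fun _ => ?_
  refine Eventually.of_forall fun _ => ?_
  refine Eventually.of_forall fun _ => ?_
  refine Eventually.of_forall fun _ => ?_
  refine Eventually.of_forall fun _ => ?_
  refine Eventually.of_forall fun _ => ?_
  refine Eventually.of_forall fun _ => ?_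
  refine Eventually.of_forall fun _ => ?_
  refine Eventually.of_forall fun _ => ?_
  refine Eventually.of_forall fun _ => ?_
  refine Eventually.of_forall fun _ => ?_
  refine Eventually.of_forall fun _ => ?_
  refine Eventually.of_forall fun _ => ?_
  exact ht

/-- The constants before `aC`. -/
def Cst.b_aC (q : Cst) : Cst :=
  ⟨q.KT, q.e₁, q.nm, q.cK, 0, 0, 0, 0, 0, 0, 0, 0, 0, 0, 0, 0, 0, 0, 0, 0, 0, 0, 0⟩

/-- `f` depends only on the constants before `aC`. -/
def NB_aC {α : Type*} (f : Cst → α) : Prop := ∀ q, f q.b_aC = f q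

theorem EvC.at_aC (f : Cst → ℝ → Prop) (h : ∀ q, ∀ᶠ t in sml, f q t) :
    EvC fun q => f q.b_aC q.aC := by
  unfold EvC
  refine Eventually.of_forall fun x0 => ?_
  refine Eventually.of_forall fun x1 => ?_
  refine Eventually.of_forall fun x2 => ?_
  refine Eventually.of_forall fun x3 => ?_
  filter_upwards [h ⟨x0, x1, x2, x3, 0, 0, 0, 0, 0, 0, 0, 0, 0, 0, 0, 0, 0, 0, 0, 0, 0, 0, 0⟩] with t ht
  refine Eventually.of_forall fun _ => ?_
  refine Eventually.of_forall fun _ => ?_
  refine Eventually.of_forall fun _ => ?_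
  refine Eventually.of_forall fun _ => ?_
  refine Eventually.of_forall fun _ => ?_
  refine Eventually.of_forall fun _ => ?_
  refine Eventually.of_forall fun _ => ?_
  refine Eventually.of_forall fun _ => ?_
  refine Eventually.of_forall fun _ => ?_
  refine Eventually.of_forall fun _ => ?_
  refine Eventually.of_forall fun _ => ?_
  refine Eventually.of_forall fun _ => ?_
  refine Eventually.of_forall fun _ => ?_
  refine Eventually.of_forall fun _ => ?_
  refine Eventually.of_forall fun _ => ?_
  refine Eventually.of_forall fun _ => ?_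
  refine Eventually.of_forall fun _ => ?_
  refine Eventually.of_forall fun _ => ?_
  exact ht

/-- The constants before `c₀`. -/
def Cst.b_c₀ (q : Cst) : Cst :=
  ⟨q.KT, q.e₁, q.nm, q.cK, q.aC, 0, 0, 0, 0, 0, 0, 0, 0, 0, 0, 0, 0, 0, 0, 0, 0, 0, 0⟩

/-- `f` depends only on the constants before `c₀`. -/
def NB_c₀ {α : Type*} (f : Cst → α) : Prop := ∀ q, f q.b_c₀ = f q

theorem EvC.at_c₀ (f : Cst → ℝ → Prop) (h : ∀ q, ∀ᶠ t in sml, f q t) :
    EvC fun q => f q.b_c₀ q.c₀ := by
  unfold EvC
  refine Eventually.of_forall fun x0 => ?_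
  refine Eventually.of_forall fun x1 => ?_
  refine Eventually.of_forall fun x2 => ?_
  refine Eventually.of_forall fun x3 => ?_
  refine Eventually.of_forall fun x4 => ?_
  filter_upwards [h ⟨x0, x1, x2, x3, x4, 0, 0, 0, 0, 0, 0, 0, 0, 0, 0, 0, 0, 0, 0, 0, 0, 0, 0⟩] with t ht
  refine Eventually.of_forall fun _ => ?_
  refine Eventually.of_forall fun _ => ?_
  refine Eventually.of_forall fun _ => ?_
  refine Eventually.of_forall fun _ => ?_
  refine Eventually.of_forall fun _ => ?_
  refine Eventually.of_forall fun _ => ?_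
  refine Eventually.of_forall fun _ => ?_
  refine Eventually.of_forall fun _ => ?_
  refine Eventually.of_forall fun _ => ?_
  refine Eventually.of_forall fun _ => ?_
  refine Eventually.of_forall fun _ => ?_
  refine Eventually.of_forall fun _ => ?_
  refine Eventually.of_forall fun _ => ?_
  refine Eventually.of_forall fun _ => ?_
  refine Eventually.of_forall fun _ => ?_
  refine Eventually.of_forall fun _ => ?_
  refine Eventually.of_forall fun _ => ?_
  exact ht

/-- The constants before `ν₁`. -/
def Cst.b_ν₁ (q : Cst) : Cst :=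
  ⟨q.KT, q.e₁, q.nm, q.cK, q.aC, q.c₀, 0, 0, 0, 0, 0, 0, 0, 0, 0, 0, 0, 0, 0, 0, 0, 0, 0⟩

/-- `f` depends only on the constants before `ν₁`. -/
def NB_ν₁ {α : Type*} (f : Cst → α) : Prop := ∀ q, f q.b_ν₁ = f q

theorem EvC.at_ν₁ (f : Cst → ℝ → Prop) (h : ∀ q, ∀ᶠ t in sml, f q t) :
    EvC fun q => f q.b_ν₁ q.ν₁ := by
  unfold EvC
  refine Eventually.of_forall fun x0 => ?_
  refine Eventually.of_forall fun x1 => ?_
  refine Eventually.of_forall fun x2 => ?_
  refine Eventually.of_forall fun x3 => ?_
  refine Eventually.of_forall fun x4 => ?_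
  refine Eventually.of_forall fun x5 => ?_
  filter_upwards [h ⟨x0, x1, x2, x3, x4, x5, 0, 0, 0, 0, 0, 0, 0, 0, 0, 0, 0, 0, 0, 0, 0, 0, 0⟩] with t ht
  refine Eventually.of_forall fun _ => ?_
  refine Eventually.of_forall fun _ => ?_
  refine Eventually.of_forall fun _ => ?_
  refine Eventually.of_forall fun _ => ?_
  refine Eventually.of_forall fun _ => ?_
  refine Eventually.of_forall fun _ => ?_
  refine Eventually.of_forall fun _ => ?_
  refine Eventually.of_forall fun _ => ?_
  refine Eventually.of_forall fun _ => ?_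
  refine Eventually.of_forall fun _ => ?_
  refine Eventually.of_forall fun _ => ?_
  refine Eventually.of_forall fun _ => ?_
  refine Eventually.of_forall fun _ => ?_
  refine Eventually.of_forall fun _ => ?_
  refine Eventually.of_forall fun _ => ?_
  refine Eventually.of_forall fun _ => ?_
  exact ht

/-- The constants before `rT`. -/
def Cst.b_rT (q : Cst) : Cst :=
  ⟨q.KT, q.e₁, q.nm, q.cK, q.aC, q.c₀, q.ν₁, 0, 0, 0, 0, 0, 0, 0, 0, 0, 0, 0, 0, 0, 0, 0, 0⟩

/-- `f` depends only on the constants before `rT`. -/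
def NB_rT {α : Type*} (f : Cst → α) : Prop := ∀ q, f q.b_rT = f q

theorem EvC.at_rT (f : Cst → ℝ → Prop) (h : ∀ q, ∀ᶠ t in sml, f q t) :
    EvC fun q => f q.b_rT q.rT := by
  unfold EvC
  refine Eventually.of_forall fun x0 => ?_
  refine Eventually.of_forall fun x1 => ?_
  refine Eventually.of_forall fun x2 => ?_
  refine Eventually.of_forall fun x3 => ?_
  refine Eventually.of_forall fun x4 => ?_
  refine Eventually.of_forall fun x5 => ?_
  refine Eventually.of_forall fun x6 => ?_
  filter_upwards [h ⟨x0, x1, x2, x3, x4, x5, x6, 0, 0, 0, 0, 0, 0, 0, 0, 0, 0, 0, 0, 0, 0, 0, 0⟩] with t ht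
  refine Eventually.of_forall fun _ => ?_
  refine Eventually.of_forall fun _ => ?_
  refine Eventually.of_forall fun _ => ?_
  refine Eventually.of_forall fun _ => ?_
  refine Eventually.of_forall fun _ => ?_
  refine Eventually.of_forall fun _ => ?_
  refine Eventually.of_forall fun _ => ?_
  refine Eventually.of_forall fun _ => ?_
  refine Eventually.of_forall fun _ => ?_
  refine Eventually.of_forall fun _ => ?_
  refine Eventually.of_forall fun _ => ?_
  refine Eventually.of_forall fun _ => ?_
  refine Eventually.of_forall fun _ => ?_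
  refine Eventually.of_forall fun _ => ?_
  refine Eventually.of_forall fun _ => ?_
  exact ht

/-- The constants before `ηc`. -/
def Cst.b_ηc (q : Cst) : Cst :=
  ⟨q.KT, q.e₁, q.nm, q.cK, q.aC, q.c₀, q.ν₁, q.rT, 0, 0, 0, 0, 0, 0, 0, 0, 0, 0, 0, 0, 0, 0, 0⟩

/-- `f` depends only on the constants before `ηc`. -/
def NB_ηc {α : Type*} (f : Cst → α) : Prop := ∀ q, f q.b_ηc = f q

theorem EvC.at_ηc (f : Cst → ℝ → Prop) (h : ∀ q, ∀ᶠ t in sml, f q t) :
    EvC fun q => f q.b_ηc q.ηc := by
  unfold EvC
  refine Eventually.of_forall fun x0 => ?_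
  refine Eventually.of_forall fun x1 => ?_
  refine Eventually.of_forall fun x2 => ?_
  refine Eventually.of_forall fun x3 => ?_
  refine Eventually.of_forall fun x4 => ?_
  refine Eventually.of_forall fun x5 => ?_
  refine Eventually.of_forall fun x6 => ?_
  refine Eventually.of_forall fun x7 => ?_
  filter_upwards [h ⟨x0, x1, x2, x3, x4, x5, x6, x7, 0, 0, 0, 0, 0, 0, 0, 0, 0, 0, 0, 0, 0, 0,
    0⟩] with t ht
  refine Eventually.of_forall fun _ => ?_
  refine Eventually.of_forall fun _ => ?_
  refine Eventually.of_forall fun _ => ?_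
  refine Eventually.of_forall fun _ => ?_
  refine Eventually.of_forall fun _ => ?_
  refine Eventually.of_forall fun _ => ?_
  refine Eventually.of_forall fun _ => ?_
  refine Eventually.of_forall fun _ => ?_
  refine Eventually.of_forall fun _ => ?_
  refine Eventually.of_forall fun _ => ?_
  refine Eventually.of_forall fun _ => ?_
  refine Eventually.of_forall fun _ => ?_
  refine Eventually.of_forall fun _ => ?_
  refine Eventually.of_forall fun _ => ?_
  exact ht

/-- The constants before `CB`. -/
def Cst.b_CB (q : Cst) : Cst :=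
  ⟨q.KT, q.e₁, q.nm, q.cK, q.aC, q.c₀, q.ν₁, q.rT, q.ηc, 0, 0, 0, 0, 0, 0, 0, 0, 0, 0, 0, 0, 0,
    0⟩

/-- `f` depends only on the constants before `CB`. -/
def NB_CB {α : Type*} (f : Cst → α) : Prop := ∀ q, f q.b_CB = f q

theorem EvC.at_CB (f : Cst → ℝ → Prop) (h : ∀ q, ∀ᶠ t in atTop, f q t) :
    EvC fun q => f q.b_CB q.CB := by
  unfold EvC
  refine Eventually.of_forall fun x0 => ?_
  refine Eventually.of_forall fun x1 => ?_
  refine Eventually.of_forall fun x2 => ?_
  refine Eventually.of_forall fun x3 => ?_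
  refine Eventually.of_forall fun x4 => ?_
  refine Eventually.of_forall fun x5 => ?_
  refine Eventually.of_forall fun x6 => ?_
  refine Eventually.of_forall fun x7 => ?_
  refine Eventually.of_forall fun x8 => ?_
  filter_upwards [h ⟨x0, x1, x2, x3, x4, x5, x6, x7, x8, 0, 0, 0, 0, 0, 0, 0, 0, 0, 0, 0, 0, 0,
    0⟩] with t ht
  refine Eventually.of_forall fun _ => ?_
  refine Eventually.of_forall fun _ => ?_
  refine Eventually.of_forall fun _ => ?_
  refine Eventually.of_forall fun _ => ?_
  refine Eventually.of_forall fun _ => ?_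
  refine Eventually.of_forall fun _ => ?_
  refine Eventually.of_forall fun _ => ?_
  refine Eventually.of_forall fun _ => ?_
  refine Eventually.of_forall fun _ => ?_
  refine Eventually.of_forall fun _ => ?_
  refine Eventually.of_forall fun _ => ?_
  refine Eventually.of_forall fun _ => ?_
  refine Eventually.of_forall fun _ => ?_
  exact ht

/-- The constants before `κ₁`. -/
def Cst.b_κ₁ (q : Cst) : Cst :=
  ⟨q.KT, q.e₁, q.nm, q.cK, q.aC, q.c₀, q.ν₁, q.rT, q.ηc, q.CB, 0, 0, 0, 0, 0, 0, 0, 0, 0, 0, 0,
    0, 0⟩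

/-- `f` depends only on the constants before `κ₁`. -/
def NB_κ₁ {α : Type*} (f : Cst → α) : Prop := ∀ q, f q.b_κ₁ = f q

theorem EvC.at_κ₁ (f : Cst → ℝ → Prop) (h : ∀ q, ∀ᶠ t in sml, f q t) :
    EvC fun q => f q.b_κ₁ q.κ₁ := by
  unfold EvC
  refine Eventually.of_forall fun x0 => ?_
  refine Eventually.of_forall fun x1 => ?_
  refine Eventually.of_forall fun x2 => ?_
  refine Eventually.of_forall fun x3 => ?_
  refine Eventually.of_forall fun x4 => ?_
  refine Eventually.of_forall fun x5 => ?_
  refine Eventually.of_forall fun x6 => ?_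
  refine Eventually.of_forall fun x7 => ?_
  refine Eventually.of_forall fun x8 => ?_
  refine Eventually.of_forall fun x9 => ?_
  filter_upwards [h ⟨x0, x1, x2, x3, x4, x5, x6, x7, x8, x9, 0, 0, 0, 0, 0, 0, 0, 0, 0, 0, 0,
    0, 0⟩] with t ht
  refine Eventually.of_forall fun _ => ?_
  refine Eventually.of_forall fun _ => ?_
  refine Eventually.of_forall fun _ => ?_
  refine Eventually.of_forall fun _ => ?_
  refine Eventually.of_forall fun _ => ?_
  refine Eventually.of_forall fun _ => ?_
  refine Eventually.of_forall fun _ => ?_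
  refine Eventually.of_forall fun _ => ?_
  refine Eventually.of_forall fun _ => ?_
  refine Eventually.of_forall fun _ => ?_
  refine Eventually.of_forall fun _ => ?_
  refine Eventually.of_forall fun _ => ?_
  exact ht

/-- The constants before `σ`. -/
def Cst.b_σ (q : Cst) : Cst :=
  ⟨q.KT, q.e₁, q.nm, q.cK, q.aC, q.c₀, q.ν₁, q.rT, q.ηc, q.CB, q.κ₁, 0, 0, 0, 0, 0, 0, 0, 0, 0,
    0, 0, 0⟩

/-- `f` depends only on the constants before `σ`. -/
def NB_σ {α : Type*} (f : Cst → α) : Prop := ∀ q, f q.b_σ = f q

theorem EvC.at_σ (f : Cst → ℝ → Prop) (h : ∀ q, ∀ᶠ t in sml, f q t) :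
    EvC fun q => f q.b_σ q.σ := by
  unfold EvC
  refine Eventually.of_forall fun x0 => ?_
  refine Eventually.of_forall fun x1 => ?_
  refine Eventually.of_forall fun x2 => ?_
  refine Eventually.of_forall fun x3 => ?_
  refine Eventually.of_forall fun x4 => ?_
  refine Eventually.of_forall fun x5 => ?_
  refine Eventually.of_forall fun x6 => ?_
  refine Eventually.of_forall fun x7 => ?_
  refine Eventually.of_forall fun x8 => ?_
  refine Eventually.of_forall fun x9 => ?_
  refine Eventually.of_forall fun x10 => ?_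
  filter_upwards [h ⟨x0, x1, x2, x3, x4, x5, x6, x7, x8, x9, x10, 0, 0, 0, 0, 0, 0, 0, 0, 0, 0,
    0, 0⟩] with t ht
  refine Eventually.of_forall fun _ => ?_
  refine Eventually.of_forall fun _ => ?_
  refine Eventually.of_forall fun _ => ?_
  refine Eventually.of_forall fun _ => ?_
  refine Eventually.of_forall fun _ => ?_
  refine Eventually.of_forall fun _ => ?_
  refine Eventually.of_forall fun _ => ?_
  refine Eventually.of_forall fun _ => ?_
  refine Eventually.of_forall fun _ => ?_
  refine Eventually.of_forall fun _ => ?_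
  refine Eventually.of_forall fun _ => ?_
  exact ht

/-- The constants before `c'`. -/
def Cst.b_c' (q : Cst) : Cst :=
  ⟨q.KT, q.e₁, q.nm, q.cK, q.aC, q.c₀, q.ν₁, q.rT, q.ηc, q.CB, q.κ₁, q.σ, 0, 0, 0, 0, 0, 0, 0,
    0, 0, 0, 0⟩

/-- `f` depends only on the constants before `c'`. -/
def NB_c' {α : Type*} (f : Cst → α) : Prop := ∀ q, f q.b_c' = f q

theorem EvC.at_c' (f : Cst → ℝ → Prop) (h : ∀ q, ∀ᶠ t in sml, f q t) :
    EvC fun q => f q.b_c' q.c' := by
  unfold EvC
  refine Eventually.of_forall fun x0 => ?_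
  refine Eventually.of_forall fun x1 => ?_
  refine Eventually.of_forall fun x2 => ?_
  refine Eventually.of_forall fun x3 => ?_
  refine Eventually.of_forall fun x4 => ?_
  refine Eventually.of_forall fun x5 => ?_
  refine Eventually.of_forall fun x6 => ?_
  refine Eventually.of_forall fun x7 => ?_
  refine Eventually.of_forall fun x8 => ?_
  refine Eventually.of_forall fun x9 => ?_
  refine Eventually.of_forall fun x10 => ?_
  refine Eventually.of_forall fun x11 => ?_
  filter_upwards [h ⟨x0, x1, x2, x3, x4, x5, x6, x7, x8, x9, x10, x11, 0, 0, 0, 0, 0, 0, 0, 0,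
    0, 0, 0⟩] with t ht
  refine Eventually.of_forall fun _ => ?_
  refine Eventually.of_forall fun _ => ?_
  refine Eventually.of_forall fun _ => ?_
  refine Eventually.of_forall fun _ => ?_
  refine Eventually.of_forall fun _ => ?_
  refine Eventually.of_forall fun _ => ?_
  refine Eventually.of_forall fun _ => ?_
  refine Eventually.of_forall fun _ => ?_
  refine Eventually.of_forall fun _ => ?_
  refine Eventually.of_forall fun _ => ?_
  exact ht

/-- The constants before `es`. -/
def Cst.b_es (q : Cst) : Cst :=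
  ⟨q.KT, q.e₁, q.nm, q.cK, q.aC, q.c₀, q.ν₁, q.rT, q.ηc, q.CB, q.κ₁, q.σ, q.c', 0, 0, 0, 0, 0,
    0, 0, 0, 0, 0⟩

/-- `f` depends only on the constants before `es`. -/
def NB_es {α : Type*} (f : Cst → α) : Prop := ∀ q, f q.b_es = f q

theorem EvC.at_es (f : Cst → ℝ → Prop) (h : ∀ q, ∀ᶠ t in sml, f q t) :
    EvC fun q => f q.b_es q.es := by
  unfold EvC
  refine Eventually.of_forall fun x0 => ?_
  refine Eventually.of_forall fun x1 => ?_
  refine Eventually.of_forall fun x2 => ?_
  refine Eventually.of_forall fun x3 => ?_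
  refine Eventually.of_forall fun x4 => ?_
  refine Eventually.of_forall fun x5 => ?_
  refine Eventually.of_forall fun x6 => ?_
  refine Eventually.of_forall fun x7 => ?_
  refine Eventually.of_forall fun x8 => ?_
  refine Eventually.of_forall fun x9 => ?_
  refine Eventually.of_forall fun x10 => ?_
  refine Eventually.of_forall fun x11 => ?_
  refine Eventually.of_forall fun x12 => ?_
  filter_upwards [h ⟨x0, x1, x2, x3, x4, x5, x6, x7, x8, x9, x10, x11, x12, 0, 0, 0, 0, 0, 0,
    0, 0, 0, 0⟩] with t ht
  refine Eventually.of_forall fun _ => ?_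
  refine Eventually.of_forall fun _ => ?_
  refine Eventually.of_forall fun _ => ?_
  refine Eventually.of_forall fun _ => ?_
  refine Eventually.of_forall fun _ => ?_
  refine Eventually.of_forall fun _ => ?_
  refine Eventually.of_forall fun _ => ?_
  refine Eventually.of_forall fun _ => ?_
  refine Eventually.of_forall fun _ => ?_
  exact ht

/-- The constants before `Cs`. -/
def Cst.b_Cs (q : Cst) : Cst :=
  ⟨q.KT, q.e₁, q.nm, q.cK, q.aC, q.c₀, q.ν₁, q.rT, q.ηc, q.CB, q.κ₁, q.σ, q.c', q.es, 0, 0, 0,
    0, 0, 0, 0, 0, 0⟩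

/-- `f` depends only on the constants before `Cs`. -/
def NB_Cs {α : Type*} (f : Cst → α) : Prop := ∀ q, f q.b_Cs = f q

theorem EvC.at_Cs (f : Cst → ℝ → Prop) (h : ∀ q, ∀ᶠ t in atTop, f q t) :
    EvC fun q => f q.b_Cs q.Cs := by
  unfold EvC
  refine Eventually.of_forall fun x0 => ?_
  refine Eventually.of_forall fun x1 => ?_
  refine Eventually.of_forall fun x2 => ?_
  refine Eventually.of_forall fun x3 => ?_
  refine Eventually.of_forall fun x4 => ?_
  refine Eventually.of_forall fun x5 => ?_
  refine Eventually.of_forall fun x6 => ?_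
  refine Eventually.of_forall fun x7 => ?_
  refine Eventually.of_forall fun x8 => ?_
  refine Eventually.of_forall fun x9 => ?_
  refine Eventually.of_forall fun x10 => ?_
  refine Eventually.of_forall fun x11 => ?_
  refine Eventually.of_forall fun x12 => ?_
  refine Eventually.of_forall fun x13 => ?_
  filter_upwards [h ⟨x0, x1, x2, x3, x4, x5, x6, x7, x8, x9, x10, x11, x12, x13, 0, 0, 0, 0, 0,
    0, 0, 0, 0⟩] with t ht
  refine Eventually.of_forall fun _ => ?_
  refine Eventually.of_forall fun _ => ?_
  refine Eventually.of_forall fun _ => ?_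
  refine Eventually.of_forall fun _ => ?_
  refine Eventually.of_forall fun _ => ?_
  refine Eventually.of_forall fun _ => ?_
  refine Eventually.of_forall fun _ => ?_
  refine Eventually.of_forall fun _ => ?_
  exact ht

/-- The constants before `C₃`. -/
def Cst.b_C₃ (q : Cst) : Cst :=
  ⟨q.KT, q.e₁, q.nm, q.cK, q.aC, q.c₀, q.ν₁, q.rT, q.ηc, q.CB, q.κ₁, q.σ, q.c', q.es, q.Cs, 0,
    0, 0, 0, 0, 0, 0, 0⟩

/-- `f` depends only on the constants before `C₃`. -/
def NB_C₃ {α : Type*} (f : Cst → α) : Prop := ∀ q, f q.b_C₃ = f q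

theorem EvC.at_C₃ (f : Cst → ℝ → Prop) (h : ∀ q, ∀ᶠ t in atTop, f q t) :
    EvC fun q => f q.b_C₃ q.C₃ := by
  unfold EvC
  refine Eventually.of_forall fun x0 => ?_
  refine Eventually.of_forall fun x1 => ?_
  refine Eventually.of_forall fun x2 => ?_
  refine Eventually.of_forall fun x3 => ?_
  refine Eventually.of_forall fun x4 => ?_
  refine Eventually.of_forall fun x5 => ?_
  refine Eventually.of_forall fun x6 => ?_
  refine Eventually.of_forall fun x7 => ?_
  refine Eventually.of_forall fun x8 => ?_
  refine Eventually.of_forall fun x9 => ?_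
  refine Eventually.of_forall fun x10 => ?_
  refine Eventually.of_forall fun x11 => ?_
  refine Eventually.of_forall fun x12 => ?_
  refine Eventually.of_forall fun x13 => ?_
  refine Eventually.of_forall fun x14 => ?_
  filter_upwards [h ⟨x0, x1, x2, x3, x4, x5, x6, x7, x8, x9, x10, x11, x12, x13, x14, 0, 0, 0,
    0, 0, 0, 0, 0⟩] with t ht
  refine Eventually.of_forall fun _ => ?_
  refine Eventually.of_forall fun _ => ?_
  refine Eventually.of_forall fun _ => ?_
  refine Eventually.of_forall fun _ => ?_
  refine Eventually.of_forall fun _ => ?_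
  refine Eventually.of_forall fun _ => ?_
  refine Eventually.of_forall fun _ => ?_
  exact ht

/-- The constants before `C₄`. -/
def Cst.b_C₄ (q : Cst) : Cst :=
  ⟨q.KT, q.e₁, q.nm, q.cK, q.aC, q.c₀, q.ν₁, q.rT, q.ηc, q.CB, q.κ₁, q.σ, q.c', q.es, q.Cs,
    q.C₃, 0, 0, 0, 0, 0, 0, 0⟩

/-- `f` depends only on the constants before `C₄`. -/
def NB_C₄ {α : Type*} (f : Cst → α) : Prop := ∀ q, f q.b_C₄ = f q

theorem EvC.at_C₄ (f : Cst → ℝ → Prop) (h : ∀ q, ∀ᶠ t in atTop, f q t) :
    EvC fun q => f q.b_C₄ q.C₄ := by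
  unfold EvC
  refine Eventually.of_forall fun x0 => ?_
  refine Eventually.of_forall fun x1 => ?_
  refine Eventually.of_forall fun x2 => ?_
  refine Eventually.of_forall fun x3 => ?_
  refine Eventually.of_forall fun x4 => ?_
  refine Eventually.of_forall fun x5 => ?_
  refine Eventually.of_forall fun x6 => ?_
  refine Eventually.of_forall fun x7 => ?_
  refine Eventually.of_forall fun x8 => ?_
  refine Eventually.of_forall fun x9 => ?_
  refine Eventually.of_forall fun x10 => ?_
  refine Eventually.of_forall fun x11 => ?_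
  refine Eventually.of_forall fun x12 => ?_
  refine Eventually.of_forall fun x13 => ?_
  refine Eventually.of_forall fun x14 => ?_
  refine Eventually.of_forall fun x15 => ?_
  filter_upwards [h ⟨x0, x1, x2, x3, x4, x5, x6, x7, x8, x9, x10, x11, x12, x13, x14, x15, 0,
    0, 0, 0, 0, 0, 0⟩] with t ht
  refine Eventually.of_forall fun _ => ?_
  refine Eventually.of_forall fun _ => ?_
  refine Eventually.of_forall fun _ => ?_
  refine Eventually.of_forall fun _ => ?_
  refine Eventually.of_forall fun _ => ?_
  refine Eventually.of_forall fun _ => ?_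
  exact ht

/-- The constants before `M₀`. -/
def Cst.b_M₀ (q : Cst) : Cst :=
  ⟨q.KT, q.e₁, q.nm, q.cK, q.aC, q.c₀, q.ν₁, q.rT, q.ηc, q.CB, q.κ₁, q.σ, q.c', q.es, q.Cs,
    q.C₃, q.C₄, 0, 0, 0, 0, 0, 0⟩

/-- `f` depends only on the constants before `M₀`. -/
def NB_M₀ {α : Type*} (f : Cst → α) : Prop := ∀ q, f q.b_M₀ = f q

theorem EvC.at_M₀ (f : Cst → ℝ → Prop) (h : ∀ q, ∀ᶠ t in atTop, f q t) :
    EvC fun q => f q.b_M₀ q.M₀ := by
  unfold EvC
  refine Eventually.of_forall fun x0 => ?_
  refine Eventually.of_forall fun x1 => ?_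
  refine Eventually.of_forall fun x2 => ?_
  refine Eventually.of_forall fun x3 => ?_
  refine Eventually.of_forall fun x4 => ?_
  refine Eventually.of_forall fun x5 => ?_
  refine Eventually.of_forall fun x6 => ?_
  refine Eventually.of_forall fun x7 => ?_
  refine Eventually.of_forall fun x8 => ?_
  refine Eventually.of_forall fun x9 => ?_
  refine Eventually.of_forall fun x10 => ?_
  refine Eventually.of_forall fun x11 => ?_
  refine Eventually.of_forall fun x12 => ?_
  refine Eventually.of_forall fun x13 => ?_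
  refine Eventually.of_forall fun x14 => ?_
  refine Eventually.of_forall fun x15 => ?_
  refine Eventually.of_forall fun x16 => ?_
  filter_upwards [h ⟨x0, x1, x2, x3, x4, x5, x6, x7, x8, x9, x10, x11, x12, x13, x14, x15, x16,
    0, 0, 0, 0, 0, 0⟩] with t ht
  refine Eventually.of_forall fun _ => ?_
  refine Eventually.of_forall fun _ => ?_
  refine Eventually.of_forall fun _ => ?_
  refine Eventually.of_forall fun _ => ?_
  refine Eventually.of_forall fun _ => ?_
  exact ht

/-- The constants before `kv`. -/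
def Cst.b_kv (q : Cst) : Cst :=
  ⟨q.KT, q.e₁, q.nm, q.cK, q.aC, q.c₀, q.ν₁, q.rT, q.ηc, q.CB, q.κ₁, q.σ, q.c', q.es, q.Cs,
    q.C₃, q.C₄, q.M₀, 0, 0, 0, 0, 0⟩

/-- `f` depends only on the constants before `kv`. -/
def NB_kv {α : Type*} (f : Cst → α) : Prop := ∀ q, f q.b_kv = f q

theorem EvC.at_kv (f : Cst → ℝ → Prop) (h : ∀ q, ∀ᶠ t in atTop, f q t) :
    EvC fun q => f q.b_kv q.kv := by
  unfold EvC
  refine Eventually.of_forall fun x0 => ?_
  refine Eventually.of_forall fun x1 => ?_
  refine Eventually.of_forall fun x2 => ?_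
  refine Eventually.of_forall fun x3 => ?_
  refine Eventually.of_forall fun x4 => ?_
  refine Eventually.of_forall fun x5 => ?_
  refine Eventually.of_forall fun x6 => ?_
  refine Eventually.of_forall fun x7 => ?_
  refine Eventually.of_forall fun x8 => ?_
  refine Eventually.of_forall fun x9 => ?_
  refine Eventually.of_forall fun x10 => ?_
  refine Eventually.of_forall fun x11 => ?_
  refine Eventually.of_forall fun x12 => ?_
  refine Eventually.of_forall fun x13 => ?_
  refine Eventually.of_forall fun x14 => ?_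
  refine Eventually.of_forall fun x15 => ?_
  refine Eventually.of_forall fun x16 => ?_
  refine Eventually.of_forall fun x17 => ?_
  filter_upwards [h ⟨x0, x1, x2, x3, x4, x5, x6, x7, x8, x9, x10, x11, x12, x13, x14, x15, x16,
    x17, 0, 0, 0, 0, 0⟩] with t ht
  refine Eventually.of_forall fun _ => ?_
  refine Eventually.of_forall fun _ => ?_
  refine Eventually.of_forall fun _ => ?_
  refine Eventually.of_forall fun _ => ?_
  exact ht

/-- The constants before `ε`. -/
def Cst.b_ε (q : Cst) : Cst :=
  ⟨q.KT, q.e₁, q.nm, q.cK, q.aC, q.c₀, q.ν₁, q.rT, q.ηc, q.CB, q.κ₁, q.σ, q.c', q.es, q.Cs,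
    q.C₃, q.C₄, q.M₀, q.kv, 0, 0, 0, 0⟩

/-- `f` depends only on the constants before `ε`. -/
def NB_ε {α : Type*} (f : Cst → α) : Prop := ∀ q, f q.b_ε = f q

theorem EvC.at_ε (f : Cst → ℝ → Prop) (h : ∀ q, ∀ᶠ t in sml, f q t) :
    EvC fun q => f q.b_ε q.ε := by
  unfold EvC
  refine Eventually.of_forall fun x0 => ?_
  refine Eventually.of_forall fun x1 => ?_
  refine Eventually.of_forall fun x2 => ?_
  refine Eventually.of_forall fun x3 => ?_
  refine Eventually.of_forall fun x4 => ?_
  refine Eventually.of_forall fun x5 => ?_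
  refine Eventually.of_forall fun x6 => ?_
  refine Eventually.of_forall fun x7 => ?_
  refine Eventually.of_forall fun x8 => ?_
  refine Eventually.of_forall fun x9 => ?_
  refine Eventually.of_forall fun x10 => ?_
  refine Eventually.of_forall fun x11 => ?_
  refine Eventually.of_forall fun x12 => ?_
  refine Eventually.of_forall fun x13 => ?_
  refine Eventually.of_forall fun x14 => ?_
  refine Eventually.of_forall fun x15 => ?_
  refine Eventually.of_forall fun x16 => ?_
  refine Eventually.of_forall fun x17 => ?_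
  refine Eventually.of_forall fun x18 => ?_
  filter_upwards [h ⟨x0, x1, x2, x3, x4, x5, x6, x7, x8, x9, x10, x11, x12, x13, x14, x15, x16,
    x17, x18, 0, 0, 0, 0⟩] with t ht
  refine Eventually.of_forall fun _ => ?_
  refine Eventually.of_forall fun _ => ?_
  refine Eventually.of_forall fun _ => ?_
  exact ht

/-- The constants before `η`. -/
def Cst.b_η (q : Cst) : Cst :=
  ⟨q.KT, q.e₁, q.nm, q.cK, q.aC, q.c₀, q.ν₁, q.rT, q.ηc, q.CB, q.κ₁, q.σ, q.c', q.es, q.Cs,
    q.C₃, q.C₄, q.M₀, q.kv, q.ε, 0, 0, 0⟩

/-- `f` depends only on the constants before `η`. -/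
def NB_η {α : Type*} (f : Cst → α) : Prop := ∀ q, f q.b_η = f q

theorem EvC.at_η (f : Cst → ℝ → Prop) (h : ∀ q, ∀ᶠ t in sml, f q t) :
    EvC fun q => f q.b_η q.η := by
  unfold EvC
  refine Eventually.of_forall fun x0 => ?_
  refine Eventually.of_forall fun x1 => ?_
  refine Eventually.of_forall fun x2 => ?_
  refine Eventually.of_forall fun x3 => ?_
  refine Eventually.of_forall fun x4 => ?_
  refine Eventually.of_forall fun x5 => ?_
  refine Eventually.of_forall fun x6 => ?_
  refine Eventually.of_forall fun x7 => ?_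
  refine Eventually.of_forall fun x8 => ?_
  refine Eventually.of_forall fun x9 => ?_
  refine Eventually.of_forall fun x10 => ?_
  refine Eventually.of_forall fun x11 => ?_
  refine Eventually.of_forall fun x12 => ?_
  refine Eventually.of_forall fun x13 => ?_
  refine Eventually.of_forall fun x14 => ?_
  refine Eventually.of_forall fun x15 => ?_
  refine Eventually.of_forall fun x16 => ?_
  refine Eventually.of_forall fun x17 => ?_
  refine Eventually.of_forall fun x18 => ?_
  refine Eventually.of_forall fun x19 => ?_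
  filter_upwards [h ⟨x0, x1, x2, x3, x4, x5, x6, x7, x8, x9, x10, x11, x12, x13, x14, x15, x16,
    x17, x18, x19, 0, 0, 0⟩] with t ht
  refine Eventually.of_forall fun _ => ?_
  refine Eventually.of_forall fun _ => ?_
  exact ht

/-- The constants before `Ck`. -/
def Cst.b_Ck (q : Cst) : Cst :=
  ⟨q.KT, q.e₁, q.nm, q.cK, q.aC, q.c₀, q.ν₁, q.rT, q.ηc, q.CB, q.κ₁, q.σ, q.c', q.es, q.Cs,
    q.C₃, q.C₄, q.M₀, q.kv, q.ε, q.η, 0, 0⟩

/-- `f` depends only on the constants before `Ck`. -/
def NB_Ck {α : Type*} (f : Cst → α) : Prop := ∀ q, f q.b_Ck = f q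

theorem EvC.at_Ck (f : Cst → ℝ → Prop) (h : ∀ q, ∀ᶠ t in atTop, f q t) :
    EvC fun q => f q.b_Ck q.Ck := by
  unfold EvC
  refine Eventually.of_forall fun x0 => ?_
  refine Eventually.of_forall fun x1 => ?_
  refine Eventually.of_forall fun x2 => ?_
  refine Eventually.of_forall fun x3 => ?_
  refine Eventually.of_forall fun x4 => ?_
  refine Eventually.of_forall fun x5 => ?_
  refine Eventually.of_forall fun x6 => ?_
  refine Eventually.of_forall fun x7 => ?_
  refine Eventually.of_forall fun x8 => ?_
  refine Eventually.of_forall fun x9 => ?_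
  refine Eventually.of_forall fun x10 => ?_
  refine Eventually.of_forall fun x11 => ?_
  refine Eventually.of_forall fun x12 => ?_
  refine Eventually.of_forall fun x13 => ?_
  refine Eventually.of_forall fun x14 => ?_
  refine Eventually.of_forall fun x15 => ?_
  refine Eventually.of_forall fun x16 => ?_
  refine Eventually.of_forall fun x17 => ?_
  refine Eventually.of_forall fun x18 => ?_
  refine Eventually.of_forall fun x19 => ?_
  refine Eventually.of_forall fun x20 => ?_
  filter_upwards [h ⟨x0, x1, x2, x3, x4, x5, x6, x7, x8, x9, x10, x11, x12, x13, x14, x15, x16,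
    x17, x18, x19, x20, 0, 0⟩] with t ht
  refine Eventually.of_forall fun _ => ?_
  exact ht

/-- The constants before `R`. -/
def Cst.b_R (q : Cst) : Cst :=
  ⟨q.KT, q.e₁, q.nm, q.cK, q.aC, q.c₀, q.ν₁, q.rT, q.ηc, q.CB, q.κ₁, q.σ, q.c', q.es, q.Cs,
    q.C₃, q.C₄, q.M₀, q.kv, q.ε, q.η, q.Ck, 0⟩

/-- `f` depends only on the constants before `R`. -/
def NB_R {α : Type*} (f : Cst → α) : Prop := ∀ q, f q.b_R = f q

theorem EvC.at_R (f : Cst → ℝ → Prop) (h : ∀ q, ∀ᶠ t in atTop, f q t) :
    EvC fun q => f q.b_R q.R := by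
  unfold EvC
  refine Eventually.of_forall fun x0 => ?_
  refine Eventually.of_forall fun x1 => ?_
  refine Eventually.of_forall fun x2 => ?_
  refine Eventually.of_forall fun x3 => ?_
  refine Eventually.of_forall fun x4 => ?_
  refine Eventually.of_forall fun x5 => ?_
  refine Eventually.of_forall fun x6 => ?_
  refine Eventually.of_forall fun x7 => ?_
  refine Eventually.of_forall fun x8 => ?_
  refine Eventually.of_forall fun x9 => ?_
  refine Eventually.of_forall fun x10 => ?_
  refine Eventually.of_forall fun x11 => ?_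
  refine Eventually.of_forall fun x12 => ?_
  refine Eventually.of_forall fun x13 => ?_
  refine Eventually.of_forall fun x14 => ?_
  refine Eventually.of_forall fun x15 => ?_
  refine Eventually.of_forall fun x16 => ?_
  refine Eventually.of_forall fun x17 => ?_
  refine Eventually.of_forall fun x18 => ?_
  refine Eventually.of_forall fun x19 => ?_
  refine Eventually.of_forall fun x20 => ?_
  refine Eventually.of_forall fun x21 => ?_
  filter_upwards [h ⟨x0, x1, x2, x3, x4, x5, x6, x7, x8, x9, x10, x11, x12, x13, x14, x15, x16,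
    x17, x18, x19, x20, x21, 0⟩] with t ht
  exact ht

end Vale.Agent.P088.R2.H31.EP
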