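import Vale.Agent.P088.R2.H31.EP.Pack
import Vale.Agent.P088.R2.H31.EP.CstL

/-!
# P088, stage 3, EST': the constants of the slope are good
-/

open Set Filter MeasureTheory
open scoped ContDiff Topology

noncomputable section

namespace Vale.Agent.P088.R2.H31.EP

theorem Cst.b_ph (q : Cst) : q.b_rT.ph = q.ph := rfl

theorem Cst.b_mc (q : Cst) : q.b_M₀.mc = q.mc := rfl

theorem EvC.good : EvC fun q => (PhGood q.nm q.ν₁ q.aC q.ph ∧ 2 ≤ q.L ∧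
    PhTop q.L q.ph q.phL ∧ MuGood q.nm q.ν₁ q.aC q.Cs q.ph q.mc ∧ q.mc.Ms ≤ q.M₀) ∧
    PhOk q.nm q.ν₁ q.aC q.Cs q.M₀ q.ph q.cl q.Φ₁ q.μ₁ := by
  have h1 : EvC fun q => 10 / 9 ≤ q.nm :=
    EvC.at_nm (fun _ t => 10 / 9 ≤ t) fun _ => eventually_ge_atTop _
  have h2 : EvC fun q => 1 ≤ q.nm → 0 < q.aC → q.ν₁ ≤ q.nm ∧ 40 * q.ν₁ ≤ 9 / 10 * q.aC := by
    refine EvC.at_ν₁ (fun q t => 1 ≤ q.nm → 0 < q.aC → t ≤ q.nm ∧ 40 * t ≤ 9 / 10 * q.aC)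
      fun q => ?_
    by_cases h : 1 ≤ q.nm ∧ 0 < q.aC
    · filter_upwards [sml_le (a := 1) one_pos, sml_le (a := 9 / 400 * q.aC)
        (by have := h.2; positivity)] with t a1 a2 _ _
      exact ⟨by linarith [h.1], by linarith⟩
    · exact Eventually.of_forall fun _ a b => absurd ⟨a, b⟩ h
  have h3 : EvC fun q => q.σ ≤ 1 := EvC.at_σ (fun _ t => t ≤ 1) fun _ => sml_le one_pos
  have h4 : EvC fun q => q.mc.Ms ≤ q.M₀ :=
    EvC.at_M₀ (fun q t => q.mc.Ms ≤ t) fun q => eventually_ge_atTop _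
  refine (((EvC.pos.and h1).and (h2.and h3)).and h4).mono ?_
  rintro q ⟨⟨⟨⟨⟨a1, a2, a3, a4, a5, a6, a7, a8, a9, a10⟩, ⟨b1, b2, b3, b4, b5, b6, b7⟩, -⟩, c1⟩,
    c2, c3⟩, c4⟩
  obtain ⟨c5, c6⟩ := c2 a3 a5
  have g := q.ph_spec c1 a7 c5 a5 c6
  have hL : 2 ≤ q.L := by
    rw [Cst.L, le_div_iff₀ b2]
    nlinarith
  have hm := Cst.mc_spec g b5
  exact ⟨⟨g, hL, Cst.phL_spec g hL, hm, c4⟩, hm.ok _ c4⟩

/-- The limit slope takes all large values. -/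
theorem EvC.hit : EvC fun q => ∀ Ms : ℝ, ∃ ν₀ : ℝ, ∀ ν : ℝ, ν₀ ≤ ν → ∃ M₀ : ℝ, Ms ≤ M₀ ∧
    2 * ({ q with M₀ := M₀ } : Cst).Nt = ν := by
  refine EvC.good.mono fun q hq Ms => ?_
  obtain ⟨N₀, h⟩ := hq.1.1.hit Ms
  refine ⟨2 * N₀, fun ν hν => ?_⟩
  obtain ⟨M₀, h1, h2⟩ := h (ν / 2) (by linarith)
  refine ⟨M₀, h1, ?_⟩
  have : ({ q with M₀ := M₀ } : Cst).Nt = q.ph.Nt M₀ := rfl
  rw [this, h2]
  ring

variable {n : ℕ}

theorem Pk.μc_eq (d : Pk n) (q : Cst) (hR : 0 < q.R) {s : ℝ} (h : s ≤ d.l₀ q + q.R / 2) :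
    d.μc q s = d.μ s := by
  have h1 : 2 * ((s - d.l₀ q) / q.R) - 1 ≤ 0 := by
    have : (s - d.l₀ q) / q.R ≤ 1 / 2 := by
      rw [div_le_iff₀ hR]
      linarith
    linarith
  rw [Pk.μc, Real.smoothTransition.zero_of_nonpos h1]
  ring

theorem Pk.μc_zero (d : Pk n) (q : Cst) (hR : 0 < q.R) {s : ℝ} (h : d.l₀ q + q.R ≤ s) :
    d.μc q s = 0 := by
  have h1 : 1 ≤ 2 * ((s - d.l₀ q) / q.R) - 1 := by
    have : 1 ≤ (s - d.l₀ q) / q.R := by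
      rw [le_div_iff₀ hR]
      linarith
    linarith
  rw [Pk.μc, Real.smoothTransition.one_of_one_le h1]
  ring

theorem Pk.μc_smooth (d : Pk n) (q : Cst) (h : ContDiff ℝ ∞ d.μ) : ContDiff ℝ ∞ (d.μc q) := by
  unfold Pk.μc
  refine h.mul (contDiff_const.sub (Real.smoothTransition.contDiff.comp ?_))
  exact (contDiff_const.mul ((contDiff_id.sub contDiff_const).div_const _)).sub contDiff_const

/-- The correction is small and of one sign. -/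
theorem Pk.μc_abs (d : Pk n) (q : Cst) (s : ℝ) : |d.μc q s| ≤ |d.μ s| := by
  rw [Pk.μc, abs_mul]
  refine mul_le_of_le_one_right (abs_nonneg _) ?_
  have h1 := Real.smoothTransition.nonneg (2 * ((s - d.l₀ q) / q.R) - 1)
  have h2 := Real.smoothTransition.le_one (2 * ((s - d.l₀ q) / q.R) - 1)
  rw [abs_le]
  constructor <;> linarith

end Vale.Agent.P088.R2.H31.EP
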