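import Vale.Agent.P088.R2.H404.Spec4
import Vale.Agent.P088.R2.H464.EP.Rq

/-!
# P088, stage 3, EST': the weight

Rate units: the touching ball has radius `R`, `l = lv` is the level function, `g` the metric
(inverse of the tensor of the first operator), `s = r² = ⟨g(p) q, q⟩`, `p = (x + y) / 2`,
`q = x - y`. The data `Fu` are functions of one variable (`Ψ`: of `(f, r)`).
`u = l(x) + l(y) + 2 χ(r²) μ(l(p))`, `W = Φ(u) + X(u) Ψ(u + log S, r)`, where `Ψ(f, r) = e^f` for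
`r ≤ rc` and `X = 1` except at the very top (there `X = 0`).
-/

open Set Filter
open scoped ContDiff Topology Matrix

noncomputable section

namespace Vale.Agent.P088.R2.H31.EP

open Vale.Agent.P088.LR Vale.Agent.P088.HY Vale.Agent.P088.R2.H464.Cu

variable {n : ℕ}

/-! ## The level -/

/-- The level function in rate units. -/
def lv (n : ℕ) (σ R kap Gs : ℝ) (x : V n) : ℝ :=
  Real.log (kap / R) + R * (T4.gy n σ (R⁻¹ • x) - Gs)

/-- A tensor in rate units. -/
def rM (R : ℝ) (s : MF n) : MF n := fun x => s (R⁻¹ • x)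

/-- A potential in rate units. -/
def rV (R : ℝ) (v : V n → ℝ) : V n → ℝ := fun x => R⁻¹ ^ 2 * v (R⁻¹ • x)

/-- The metric of a tensor. -/
def gi (s : MF n) : MF n := fun x => (s x)⁻¹

/-! ## The weight -/

/-- The functions of one variable. -/
structure Fu where
  /-- the slope part, a function of `u` -/
  Φ : ℝ → ℝ
  /-- the correction of the level near the diagonal -/
  μ : ℝ → ℝ
  /-- the cut-off of the correction, a function of `r²` -/
  χ : ℝ → ℝ
  /-- the profile, a function of `r²` -/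
  S : ℝ → ℝ
  /-- the stiff part, a function of `(f, r)` -/
  Ψ : ℝ × ℝ → ℝ
  /-- the cut-off of the stiff part at the top, a function of `u` -/
  X : ℝ → ℝ
  /-- `Ψ (f, r) = e^f` for `r ≤ rc` -/
  rc : ℝ

/-- `r²`. -/
def r2 (g : MF n) (z : VV n) : ℝ := 2 * rq g z

/-- `u`. -/
def uu (F : Fu) (l : V n → ℝ) (g : MF n) (z : VV n) : ℝ :=
  l z.1 + l z.2 + 2 * (F.χ (r2 g z) * F.μ (l (mid z)))

/-- The stiff part as a function of `u` and `s = r²`. -/
def st (F : Fu) (u s : ℝ) : ℝ :=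
  if s ≤ F.rc ^ 2 then Real.exp u * F.S s else F.Ψ (u + Real.log (F.S s), √s)

/-- The weight (rate units). -/
def WW (F : Fu) (l : V n → ℝ) (g : MF n) (z : VV n) : ℝ :=
  F.Φ (uu F l g z) + F.X (uu F l g z) * st F (uu F l g z) (r2 g z)

/-- The final weight: `P` is the radial retraction (the identity except very far out), `Θ` the top
part (`0` except at the top). -/
def WT (F : Fu) (Θ : ℝ → ℝ) (P : V n → V n) (l : V n → ℝ) (g : MF n) (z : VV n) : ℝ :=
  WW F l g (P z.1, P z.2) + (Θ (l z.1) + Θ (l z.2))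

/-- The weight in the unit chart, normalised at the selected point; `l` is the level in rate units
(`l = lv n σ R kap Gs` on `|x| ≤ 5 R / 4`), `s` the tensor of the first operator. -/
def WU (F : Fu) (Θ : ℝ → ℝ) (P : V n → V n) (R kap : ℝ) (l : V n → ℝ) (s : MF n) (z : VV n) : ℝ :=
  WT F Θ P l (gi (rM R s)) (R • z) - F.Φ (2 * Real.log (kap / R))

/-! ## Regularity of the functions -/

/-- The regularity of the one-variable data, `rc < rd`. -/
structure Fu.Ok (F : Fu) (rd : ℝ) : Prop where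
  Φs : ContDiff ℝ ∞ F.Φ
  μs : ContDiff ℝ ∞ F.μ
  χs : ContDiff ℝ ∞ F.χ
  Ss : ContDiff ℝ ∞ F.S
  S0 : F.S 0 = 0
  Sp : ∀ s, 0 < s → 0 < F.S s
  Ψs : ContDiffOn ℝ ∞ F.Ψ {w | 0 < w.2}
  Ψi : ∀ f r, 0 < r → r < rd → F.Ψ (f, r) = Real.exp f
  Ψp : ∀ f r, 0 < r → 0 ≤ F.Ψ (f, r)
  Xs : ContDiff ℝ ∞ F.X
  rc0 : 0 < F.rc
  rcd : F.rc < rd

theorem st_in {F : Fu} {u s : ℝ} (h : s ≤ F.rc ^ 2) : st F u s = Real.exp u * F.S s := if_pos h

theorem st_in' {F : Fu} {rd u s : ℝ} (hF : F.Ok rd) (h : s < rd ^ 2) :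
    st F u s = Real.exp u * F.S s := by
  by_cases h1 : s ≤ F.rc ^ 2
  · exact st_in h1
  · have hs : 0 < s := lt_of_le_of_lt (sq_nonneg _) (not_le.1 h1)
    have h2 : √s < rd := by
      rw [Real.sqrt_lt' (hF.rc0.trans hF.rcd)]
      exact h
    unfold st
    rw [if_neg h1, hF.Ψi _ _ (Real.sqrt_pos.2 hs) h2, Real.exp_add, Real.exp_log (hF.Sp s hs)]

theorem st_out {F : Fu} {rd u s : ℝ} (hF : F.Ok rd) (h : 0 < s) :
    st F u s = F.Ψ (u + Real.log (F.S s), √s) := by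
  by_cases h1 : s ≤ F.rc ^ 2
  · have h2 : √s < rd := by
      rw [Real.sqrt_lt' (hF.rc0.trans hF.rcd)]
      refine h1.trans_lt ?_
      have := hF.rcd
      have := hF.rc0
      gcongr
    rw [st_in h1, hF.Ψi _ _ (Real.sqrt_pos.2 h) h2, Real.exp_add, Real.exp_log (hF.Sp s h)]
  · exact if_neg h1

theorem st_nonneg {F : Fu} {rd : ℝ} (hF : F.Ok rd) (u : ℝ) {s : ℝ} (hs : 0 ≤ s) : 0 ≤ st F u s := by
  rcases hs.eq_or_lt with h | h
  · rw [← h, st_in (sq_nonneg _), hF.S0, mul_zero]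
  · rw [st_out hF h]
    exact hF.Ψp _ _ (Real.sqrt_pos.2 h)

/-- The stiff part is smooth. -/
theorem st_smooth {F : Fu} {rd : ℝ} (hF : F.Ok rd) :
    ContDiff ℝ ∞ (fun w : ℝ × ℝ => st F w.1 w.2) := by
  rw [contDiff_iff_contDiffAt]
  intro w
  have hrd : 0 < rd := hF.rc0.trans hF.rcd
  by_cases h : w.2 < rd ^ 2
  · have h1 : (fun w : ℝ × ℝ => st F w.1 w.2) =ᶠ[𝓝 w] fun w => Real.exp w.1 * F.S w.2 := by
      filter_upwards [(isOpen_lt continuous_snd continuous_const).mem_nhds h] with v hv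
      exact st_in' hF hv
    refine ContDiffAt.congr_of_eventuallyEq ?_ h1
    exact ((contDiff_fst.exp).mul (hF.Ss.comp contDiff_snd)).contDiffAt
  · have h0 : 0 < w.2 := lt_of_lt_of_le (by positivity) (not_lt.1 h)
    have h1 : (fun w : ℝ × ℝ => st F w.1 w.2) =ᶠ[𝓝 w]
        fun w => F.Ψ (w.1 + Real.log (F.S w.2), √w.2) := by
      filter_upwards [(isOpen_lt continuous_const continuous_snd).mem_nhds h0] with v hv
      exact st_out hF hv
    refine ContDiffAt.congr_of_eventuallyEq ?_ h1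
    have h2 : ContDiffAt ℝ ∞ (fun w : ℝ × ℝ => (w.1 + Real.log (F.S w.2), √w.2)) w := by
      refine ContDiffAt.prodMk ?_ ?_
      · exact contDiffAt_fst.add (((hF.Ss.comp contDiff_snd).contDiffAt).log (hF.Sp _ h0).ne')
      · exact contDiffAt_snd.sqrt h0.ne'
    have h3 : ContDiffAt ℝ ∞ F.Ψ (w.1 + Real.log (F.S w.2), √w.2) :=
      (hF.Ψs _ (Real.sqrt_pos.2 h0)).contDiffAt
        ((isOpen_lt continuous_const continuous_snd).mem_nhds (Real.sqrt_pos.2 h0))
    exact h3.comp w h2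

/-- The weight is smooth. -/
theorem WW_smooth {F : Fu} {rd : ℝ} (hF : F.Ok rd) {l : V n → ℝ} (hl : ContDiff ℝ ∞ l) {g : MF n}
    (hg : ∀ i j, ContDiff ℝ ∞ (fun x => g x i j)) : ContDiff ℝ ∞ (WW F l g) := by
  have hr : ContDiff ℝ ∞ (r2 g) := by
    unfold r2 rq bf
    have : ∀ i, ContDiff ℝ ∞ (fun z : VV n => dif z i) := fun i => by
      unfold dif
      exact ((contDiff_apply ℝ ℝ i).comp contDiff_fst).sub
        ((contDiff_apply ℝ ℝ i).comp contDiff_snd)
    refine contDiff_const.mul (contDiff_const.mul (ContDiff.sum fun i _ => ContDiff.sum fun j _ => ?_))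
    exact (((hg i j).comp contDiff_mid).mul (this i)).mul (this j)
  have h1 : ContDiff ℝ ∞ fun z : VV n => l z.1 := hl.comp contDiff_fst
  have h2 : ContDiff ℝ ∞ fun z : VV n => l z.2 := hl.comp contDiff_snd
  have h3 : ContDiff ℝ ∞ fun z : VV n => 2 * (F.χ (r2 g z) * F.μ (l (mid z))) :=
    contDiff_const.mul ((hF.χs.comp hr).mul (hF.μs.comp (hl.comp contDiff_mid)))
  have h4 : ContDiff ℝ ∞ (uu F l g) := (h1.add h2).add h3
  have h6 : ContDiff ℝ ∞ fun z => st F (uu F l g z) (r2 g z) :=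
    (st_smooth hF).comp (h4.prodMk hr)
  exact (hF.Φs.comp h4).add ((hF.Xs.comp h4).mul h6)

/-- The final weight is smooth. -/
theorem WT_smooth {F : Fu} {rd : ℝ} (hF : F.Ok rd) {Θ : ℝ → ℝ} (hΘ : ContDiff ℝ ∞ Θ)
    {P : V n → V n} (hP : ContDiff ℝ ∞ P) {l : V n → ℝ} (hl : ContDiff ℝ ∞ l) {g : MF n}
    (hg : ∀ i j, ContDiff ℝ ∞ (fun x => g x i j)) : ContDiff ℝ ∞ (WT F Θ P l g) := by
  have h1 : ContDiff ℝ ∞ fun z : VV n => l z.1 := hl.comp contDiff_fst
  have h2 : ContDiff ℝ ∞ fun z : VV n => l z.2 := hl.comp contDiff_snd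
  exact ((WW_smooth hF hl hg).comp ((hP.comp contDiff_fst).prodMk (hP.comp contDiff_snd))).add
    ((hΘ.comp h1).add (hΘ.comp h2))

end Vale.Agent.P088.R2.H31.EP
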