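import Vale.Agent.P088.R2.H31.EP.Dat
import Vale.Agent.P088.R2.H31.EP.Cst
import Vale.Agent.P088.R2.H313.All
import Vale.Agent.P088.R2.H313.Th
import Vale.Agent.P088.R2.H475.INF.LevR
import Vale.Agent.P088.R2.H871.INF.RetP
import Vale.Agent.P088.R2.H768.W.Exi
import Vale.Agent.P088.R2.H644.W.Prof2
import Vale.Agent.P088.R2.H551.E.Cur

/-!
# P088, stage 3, EST': the data package

`Pk n`: the data of one weight; `PkOk q d`: its properties for the constants `q`. A zone theorem is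
`ZoneThm n χ mg co := EvC fun q => ∀ d : Pk n, PkOk q d → d.Zone q (χ q d) (mg q d) (co q d)`.
-/

open Set Filter MeasureTheory
open scoped ContDiff Topology Matrix

noncomputable section

namespace Vale.Agent.P088.R2.H31.EP

open Vale.Agent.P088.LR Vale.Agent.P088.HY
open Vale.Agent.P088.R2.H464.Cu (mid dif rq)

/-! ## The profile: `θ = 2`, final slope `Li`, slow rate `e₁` -/

/-- The final slope of the profile. -/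
def Li : ℝ := 4 / 5

/-- The profile is `(cosh 2r - 1) / 4` for `r ≤ rp`. -/
def rp : ℝ := 20

/-- The rounding at the end of the slow part. -/
def dp : ℝ := 1 / 10

/-- The profile as a function of `r²`. -/
def prS (e₁ : ℝ) : ℝ → ℝ := H644.Ph 2 Li e₁ rp dp

/-- `S' / S` and `-r L' / L` as functions of `r`. -/
def prL (e₁ : ℝ) : ℝ → ℝ := H644.Lf 2 Li e₁ rp dp
def prE (e₁ : ℝ) : ℝ → ℝ := H644.ef 2 Li e₁ rp dp

/-- The radius from which `L = Li`. -/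
def prR (e₁ : ℝ) : ℝ := rp * Real.exp (2 + (H644.az 2 Li rp + dp) / e₁)

/-! ## The slow exponential -/

/-- The constants `Cb` of `H768.W.slow`. -/
def slB : ℕ → ℕ → ℝ := H768.W.slow.choose

theorem slow_ex (c' es : ℝ) : ∃ C₀ : ℝ, 0 < c' → 0 < es → ∃ N₀ : ℝ, 0 < C₀ ∧ 1 ≤ N₀ ∧
    ∀ N : ℝ, N₀ ≤ N → 0 < C₀ * Real.log N / N ∧ C₀ * Real.log N / N ≤ es ∧
      H768.W.IsSlow es N c' (C₀ * Real.log N / N) (c' * N / 2) slB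
        (H768.W.uu (C₀ * Real.log N / N) (c' * N / 2))
        (H768.W.Dp (C₀ * Real.log N / N) (c' * N / 2)) := by
  by_cases h : 0 < c' ∧ 0 < es
  · obtain ⟨C₀, N₀, h1⟩ := H768.W.slow.choose_spec c' es h.1 h.2
    exact ⟨C₀, fun _ _ => ⟨N₀, h1⟩⟩
  · exact ⟨0, fun h1 h2 => absurd ⟨h1, h2⟩ h⟩

/-- The constant `C₀` of `H768.W.slow`. -/
def slC (c' es : ℝ) : ℝ := (slow_ex c' es).choose

/-- `τ` and `r₁` of the slow exponential. -/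
def Cst.τ (q : Cst) : ℝ := slC q.c' q.es * Real.log q.M₀ / q.M₀
def Cst.r₁ (q : Cst) : ℝ := q.c' * q.M₀ / 2

/-- `∂_f^i ∂_r^j Ψ`. -/
def Cst.D (q : Cst) (i j : ℕ) : ℝ × ℝ → ℝ := H768.W.Dp q.τ q.r₁ i j

/-! ## The slope -/

/-- The rate of the third growth. -/
def Cst.L (q : Cst) : ℝ := 10 * q.C₃ / q.σ

/-- The constants of the slope (they depend on `nm`, `ν₁`, `aC`) and the families of slopes and
limits (functions of `M₀`). -/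
structure PhC where
  Ma : ℝ
  Cb : ℝ
  CT : ℝ
  Cd : ℕ → ℝ
  Ct : ℕ → ℝ
  /-- `Φ = Φ M₀`, `Φ'(∞) = Nt M₀`, `Nt - Φ' ≤ B e^(-u)` -/
  Φ : ℝ → ℝ → ℝ
  Nt : ℝ → ℝ
  B : ℝ → ℝ

/-- The constants of the correction (they depend on `nm`, `ν₁`, `aC`, `Cs`) and the family of
corrections. -/
structure MuC where
  Ms : ℝ
  cl : ℝ
  μ : ℝ → ℝ → ℝ

/-- The constants of `μ`. -/
def muC : ℕ → ℝ := H313.Tp.exists_all.choose

/-- The properties of `Φ`, `μ` for the slope `M₀`. -/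
structure PhOk (nm ν₁ aC Cs M₀ : ℝ) (c : PhC) (cl : ℝ) (Φ μ : ℝ → ℝ) : Prop where
  isΦ : H313.Ph.IsPhiU (9 / 10) 1 nm ν₁ 1 (1 / aC) 1 (9 / 10) (133 / 50) c.Cb c.Cd M₀ Φ
  N1 : M₀ ≤ c.Nt M₀
  N2 : c.Nt M₀ ≤ c.Cb * M₀
  nt : ∀ u, 0 ≤ c.Nt M₀ - deriv Φ u ∧ c.Nt M₀ - deriv Φ u ≤ c.B M₀ * Real.exp (-u)
  isμ : H313.Mu.IsMu Cs 1 muC M₀ μ
  b0 : H313.Mu.b0 1 M₀ ≤ 1 / 8
  μb : ∀ s, |μ s| ≤ 1 / 8
  low : ∀ u, Real.exp u ≤ 8 * Real.exp 1 ^ 2 * Cs * deriv Φ u → cl * Real.exp u ≤ deriv (deriv Φ) u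
  four : ∀ u, 4 * deriv Φ u ^ (13 / 5 : ℝ) ≤ M₀ ^ (261 / 100 : ℝ)

/-- The constants `CL`, `U(M₀)` are good: the second and the third growth exist for `t ≥ U`. -/
def PhTop (L : ℝ) (c : PhC) (z : (ℕ → ℝ) × (ℝ → ℝ)) : Prop :=
  (∀ j, 0 ≤ z.1 j) ∧ ∀ M₀, c.Ma ≤ M₀ → ∀ t a b, z.2 M₀ ≤ t → t + 1 ≤ a → a + 1 ≤ b →
    ∃ Ψ : ℝ → ℝ, H313.Tp.IsTop 2 L t a b c.CT c.Ct z.1 M₀ (c.Φ M₀) Ψ

/-- The constants of the correction are good. -/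
structure MuGood (nm ν₁ aC Cs : ℝ) (c : PhC) (m : MuC) : Prop where
  Ma : c.Ma ≤ m.Ms
  Ms1 : Real.exp 100 ≤ m.Ms
  cl0 : 0 < m.cl
  ok : ∀ M₀, m.Ms ≤ M₀ → PhOk nm ν₁ aC Cs M₀ c m.cl (c.Φ M₀) (m.μ M₀)

/-- The constants of the slope are good. -/
structure PhGood (nm ν₁ aC : ℝ) (c : PhC) : Prop where
  Ma1 : 1 ≤ c.Ma
  Cb0 : 0 < c.Cb
  CT0 : 0 < c.CT
  Cd0 : ∀ j, 0 ≤ c.Cd j
  Ct0 : ∀ j, 0 ≤ c.Ct j
  /-- every large number is a limit slope -/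
  hit : ∀ M₁, ∃ N₀, ∀ N, N₀ ≤ N → ∃ M₀, M₁ ≤ M₀ ∧ c.Nt M₀ = N
  top : ∀ L, 2 ≤ L → ∃ z, PhTop L c z
  mu : ∀ Cs, 1 ≤ Cs → ∃ m, MuGood nm ν₁ aC Cs c m

theorem ph_ex {nm ν₁ aC : ℝ} (h1 : 10 / 9 ≤ nm) (h2 : 0 < ν₁) (h3 : ν₁ ≤ nm) (h4 : 0 < aC)
    (h5 : 40 * ν₁ ≤ 9 / 10 * aC) : ∃ c : PhC, PhGood nm ν₁ aC c := by
  obtain ⟨Ma, Cb, CT, Cd, Ct, Φ, Nt, a1, a2, a3, a4, a5, -, a6, a7, a8, a9⟩ :=
    H313.Tp.exists_all.choose_spec.2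
      (ρ := 9 / 10) (κ := 1) (nm := nm) (ν := ν₁) (C1 := 1) (C2 := 1 / aC) (C3 := 1)
      (al := 9 / 10) (be := 133 / 50) (f2 := 2) (by norm_num) (by norm_num)
      (by norm_num) (by linarith) h2 (by norm_num) (by positivity) (by norm_num) (by linarith) h3
      (by rw [div_mul_eq_mul_div, div_le_iff₀ h4]; linarith) (by norm_num) (by norm_num)
      (by norm_num) (by norm_num)
  have hB : ∀ M₀, ∃ B : ℝ, Ma ≤ M₀ → ∀ u, 0 ≤ Nt M₀ - deriv (Φ M₀) u ∧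
      Nt M₀ - deriv (Φ M₀) u ≤ B * Real.exp (-u) := fun M₀ => by
    by_cases h : Ma ≤ M₀
    · obtain ⟨B, hB⟩ := (a7 M₀ h).2.2.2
      exact ⟨B, fun _ => hB⟩
    · exact ⟨0, fun h' => absurd h' h⟩
  choose B hB using hB
  refine ⟨⟨Ma, Cb, CT, Cd, Ct, Φ, Nt, B⟩, a1, a2, a3, a4, a5, fun M₁ => ?_, fun L hL => ?_,
    fun Cs hCs => ?_⟩
  · obtain ⟨N₀, h⟩ := a6 (max M₁ Ma) (le_max_right _ _)
    refine ⟨N₀, fun N hN => ?_⟩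
    obtain ⟨M₀, h1, h2⟩ := h N hN
    exact ⟨M₀, (le_max_left _ _).trans h1, h2⟩
  · obtain ⟨CL, b1, b2⟩ := a8 L hL
    have hU : ∀ M₀, ∃ U : ℝ, Ma ≤ M₀ → ∀ t a b, U ≤ t → t + 1 ≤ a → a + 1 ≤ b →
        ∃ Ψ : ℝ → ℝ, H313.Tp.IsTop 2 L t a b CT Ct CL M₀ (Φ M₀) Ψ := fun M₀ => by
      by_cases h : Ma ≤ M₀
      · obtain ⟨U, -, hU⟩ := b2 M₀ h
        exact ⟨U, fun _ => hU⟩
      · exact ⟨0, fun h' => absurd h' h⟩
    choose U hU using hU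
    exact ⟨⟨CL, U⟩, b1, fun M₀ hM => hU M₀ hM⟩
  · obtain ⟨Ms, cl, μ, b1, b2, b3, b4⟩ := a9 Cs 1 hCs one_pos
    refine ⟨⟨Ms, cl, μ⟩, b1, b2, b3, fun M₀ hM => ?_⟩
    obtain ⟨c1, c2, c3, c4, c5⟩ := b4 M₀ hM
    have hM' := b1.trans hM
    exact ⟨(a7 M₀ hM').1, (a7 M₀ hM').2.1, (a7 M₀ hM').2.2.1, hB M₀ hM', c1, c2, c3, c4, c5⟩

/-- The constants of the slope. -/
def Cst.ph (q : Cst) : PhC :=
  @Classical.epsilon PhC ⟨⟨0, 0, 0, fun _ => 0, fun _ => 0, fun _ _ => 0, fun _ => 0, fun _ => 0⟩⟩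
    (PhGood q.nm q.ν₁ q.aC)

/-- The constants `CL`, `U`. -/
def Cst.phL (q : Cst) : (ℕ → ℝ) × (ℝ → ℝ) := Classical.epsilon (PhTop q.L q.ph)

/-- The constants of the correction. -/
def Cst.mc (q : Cst) : MuC :=
  @Classical.epsilon MuC ⟨⟨0, 0, fun _ _ => 0⟩⟩ (MuGood q.nm q.ν₁ q.aC q.Cs q.ph)

/-- `K ≥ cl E` where `E ≤ 8 e² Cs N`. -/
def Cst.cl (q : Cst) : ℝ := q.mc.cl

/-- The slope without second growth, the correction, the limit slope `ν / 2` and its constant. -/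
def Cst.Φ₁ (q : Cst) : ℝ → ℝ := q.ph.Φ q.M₀
def Cst.μ₁ (q : Cst) : ℝ → ℝ := q.mc.μ q.M₀
def Cst.Nt (q : Cst) : ℝ := q.ph.Nt q.M₀
def Cst.Bt (q : Cst) : ℝ := q.ph.B q.M₀

theorem Cst.ph_spec (q : Cst) (h1 : 10 / 9 ≤ q.nm) (h2 : 0 < q.ν₁) (h3 : q.ν₁ ≤ q.nm)
    (h4 : 0 < q.aC) (h5 : 40 * q.ν₁ ≤ 9 / 10 * q.aC) : PhGood q.nm q.ν₁ q.aC q.ph :=
  @Classical.epsilon_spec _ (PhGood q.nm q.ν₁ q.aC) (ph_ex h1 h2 h3 h4 h5)

theorem Cst.phL_spec {q : Cst} (h : PhGood q.nm q.ν₁ q.aC q.ph) (hL : 2 ≤ q.L) :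
    PhTop q.L q.ph q.phL :=
  Classical.epsilon_spec (h.top q.L hL)

theorem Cst.mc_spec {q : Cst} (h : PhGood q.nm q.ν₁ q.aC q.ph) (h1 : 1 ≤ q.Cs) :
    MuGood q.nm q.ν₁ q.aC q.Cs q.ph q.mc :=
  @Classical.epsilon_spec _ (MuGood q.nm q.ν₁ q.aC q.Cs q.ph) (h.mu q.Cs h1)

/-- The cut-off of `μ`, a function of `r²`: `1` for `r ≤ 1`, `0` for `r ≥ 2`. -/
def chi0 (s : ℝ) : ℝ := Real.smoothTransition ((4 - s) / 3)

/-! ## The data -/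

/-- The data (rate units). -/
structure Pk (n : ℕ) where
  /-- the slope (with the second growth) and the slope before the second growth -/
  Φ : ℝ → ℝ
  Φ₁ : ℝ → ℝ
  /-- the correction of `u` and its cut-off (a function of `r²`) -/
  μ : ℝ → ℝ
  χ : ℝ → ℝ
  /-- the top part, its fast component and its slow component (at the scale `√R`) -/
  Θ : ℝ → ℝ
  ΘL : ℝ → ℝ
  ΘT : ℝ → ℝ
  /-- the retraction -/
  P : V n → V n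
  /-- the level function -/
  l : V n → ℝ
  /-- the tensors -/
  s₁ : MF n
  s₂ : MF n
  /-- the stiffness and the level at the selected point -/
  kap : ℝ
  Gs : ℝ

variable {n : ℕ}

/-- The level of the sphere `gy = 0`. -/
def Pk.l₀ (d : Pk n) (q : Cst) : ℝ := Real.log (d.kap / q.R) - q.R * d.Gs

/-- The correction, cut off between the levels `l₀ + R / 2` and `l₀ + R` (so that it vanishes on the
reverse pass). -/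
def Pk.μc (d : Pk n) (q : Cst) (s : ℝ) : ℝ :=
  d.μ s * (1 - Real.smoothTransition (2 * ((s - d.l₀ q) / q.R) - 1))

/-- The functions of one variable of the weight. -/
def Pk.F (d : Pk n) (q : Cst) : Fu where
  Φ := d.Φ
  μ := d.μc q
  χ := d.χ
  S := prS q.e₁
  Ψ := q.D 0 0
  X := fun _ => 1
  rc := q.r₁ * Real.exp (-1) / 2

/-- The weight. -/
def Pk.W (d : Pk n) (q : Cst) : VV n → ℝ := WT (d.F q) d.Θ d.P d.l (gi d.s₁)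

/-- `u`, `E = e^u`, `r²`, `m = E r²`, `N`, `K` (where `P = id`). -/
def Pk.u (d : Pk n) (q : Cst) : VV n → ℝ := uu (d.F q) d.l (gi d.s₁)
def Pk.E (d : Pk n) (q : Cst) (z : VV n) : ℝ := Real.exp (d.u q z)
def Pk.r2 (d : Pk n) : VV n → ℝ := EP.r2 (gi d.s₁)
def Pk.m (d : Pk n) (q : Cst) (z : VV n) : ℝ := d.E q z * d.r2 z
def Pk.N (d : Pk n) (q : Cst) (z : VV n) : ℝ := deriv d.Φ (d.u q z)
def Pk.Kf (d : Pk n) (q : Cst) (z : VV n) : ℝ := deriv (deriv d.Φ) (d.u q z)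

/-- The slots. -/
def Pk.sx (d : Pk n) := H961.GW.slx (fun _ => (1 : ℝ)) d.s₁
def Pk.sy (d : Pk n) := H961.GW.sly (fun _ => (1 : ℝ)) d.s₂

/-- The second growth (rate `2`) begins at `uth`, the third (rate `10 C₃ / σ`) at `uta`, `N` is
nearly constant from `utb` on. -/
def Pk.uth (d : Pk n) (q : Cst) : ℝ := 2 * d.l₀ q + 22 / 10 * q.R
def Pk.uta (d : Pk n) (q : Cst) : ℝ := 2 * d.l₀ q + 45 / 10 * q.R
def Pk.utb (d : Pk n) (q : Cst) : ℝ := 2 * d.l₀ q + 47 / 10 * q.R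

/-- A zone inequality for the data `d`. -/
def Pk.Zone (d : Pk n) (q : Cst) (χ : VV n → ℝ) (mg co : H551.E.Q8 (VV n)) : Prop :=
  H551.E.Zone d.sx d.sy univ 1 0 0 (d.W q) χ mg co

/-- The level function: helper475's `levG`, equal to `lv` on `|x| ≤ 5 R / 4`. -/
structure Lev (n : ℕ) (σ R kap Gs : ℝ) (l : V n → ℝ) : Prop where
  sm : ContDiff ℝ ∞ l
  eq : ∀ x, HY.sq x ≤ (5 / 4 * R) ^ 2 → l x = lv n σ R kap Gs x
  lit : l = H475.levG n σ R kap Gs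

/-- The constants of `Θ`. -/
def thC : ℕ → ℝ := H313.Th.exists_thL.choose

/-- The slope of `Θ` at the top and its rate. -/
def Cst.A₄ (q : Cst) : ℝ := Real.exp (q.C₄ * q.R / q.σ)
def Cst.L₄ (q : Cst) : ℝ := 20 * q.C₄ / q.σ

/-- The retraction: helper871's `rP`, the identity where `l ≤ l₀ + 3 R`. -/
structure Ret (n : ℕ) (σ R l₀ : ℝ) (l : V n → ℝ) (P : V n → V n) : Prop where
  sm : ContDiff ℝ ∞ P
  id : ∀ x, l x ≤ l₀ + 3 * R → P x = x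
  lit : P = H871.INF.rP n σ R

/-- The properties of the data for the constants `q`. -/
structure PkOk (q : Cst) (d : Pk n) : Prop where
  ok : (d.F q).Ok (q.r₁ * Real.exp (-1))
  /-- tensors: twelve derivatives, the difference decays like `e^(-100 l)` -/
  rg : Rg 12 q.ε 100 q.σ q.R d.kap d.Gs d.s₁ d.s₂
  /-- parameters -/
  G1 : -q.η ≤ d.Gs
  G0 : d.Gs ≤ 0
  k1 : 1 ≤ d.kap
  kC : q.R ^ q.Ck ≤ d.kap
  kη : d.kap ≤ Real.exp (q.η * q.R)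
  /-- slope and `μ` -/
  eΦ : d.Φ₁ = q.Φ₁
  eμ : d.μ = q.μ₁
  ph : PhOk q.nm q.ν₁ q.aC q.Cs q.M₀ q.ph q.cl d.Φ₁ d.μ
  top : H313.Tp.IsTop 2 q.L (d.uth q) (d.uta q) (d.utb q) q.ph.CT q.ph.Ct q.phL.1 q.M₀ d.Φ₁ d.Φ
  /-- slow exponential -/
  sl : H768.W.IsSlow q.es q.M₀ q.c' q.τ q.r₁ slB (H768.W.uu q.τ q.r₁) q.D
  τ0 : 0 < q.τ
  τ1 : q.τ ≤ q.es
  /-- cut-off of `μ`: `1` for `r ≤ 1`, `0` for `r ≥ 2` -/
  χs : ContDiff ℝ ∞ d.χ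
  χ1 : ∀ s, s ≤ 1 → d.χ s = 1
  χ0 : ∀ s, 4 ≤ s → d.χ s = 0
  χb : ∀ s, 0 ≤ d.χ s ∧ d.χ s ≤ 1
  eχ : d.χ = chi0
  /-- level, retraction, top part -/
  lev : Lev n q.σ q.R d.kap d.Gs d.l
  ret : Ret n q.σ q.R (d.l₀ q) d.l d.P
  Θs : ContDiff ℝ ∞ d.Θ
  Θ0 : ∀ t, t ≤ d.l₀ q + 26 / 10 * q.R → d.Θ t = 0
  Θe : d.Θ = fun t => d.ΘL t + √q.R * d.ΘT (t / √q.R)
  th : H313.Th.IsThL thC q.A₄ q.L₄ (d.l₀ q + 26 / 10 * q.R) (3 / 10 * q.R) d.ΘL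
  ts : H313.Th.IsThL thC (q.R ^ 4) 1 ((d.l₀ q + 26 / 10 * q.R) / √q.R) (8 / 100 * √q.R) d.ΘT

/-- The form of a zone theorem. -/
def ZoneThm (n : ℕ) (χ : Cst → Pk n → VV n → ℝ) (mg co : Cst → Pk n → H551.E.Q8 (VV n)) : Prop :=
  EvC fun q => ∀ d : Pk n, PkOk q d → d.Zone q (χ q d) (mg q d) (co q d)

/-- **Row EP-TOP-EX** (helper794). The package exists. -/
def PkEx (n : ℕ) : Prop := EvC fun q => ∀ (s₁ s₂ : MF n) (kap Gs : ℝ),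
  Rg 12 q.ε 100 q.σ q.R kap Gs s₁ s₂ → -q.η ≤ Gs → Gs ≤ 0 → 1 ≤ kap → q.R ^ q.Ck ≤ kap →
  kap ≤ Real.exp (q.η * q.R) → ∃ d : Pk n, PkOk q d ∧ d.s₁ = s₁ ∧ d.s₂ = s₂ ∧ d.kap = kap ∧ d.Gs = Gs

end Vale.Agent.P088.R2.H31.EP
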