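import Vale.Agent.P088.R2.H31.EP.PackL

/-!
# P088, stage 3, EST': the top part `Θ = ΘL + √R ΘT (· / √R)`

Facts for `d.Θ` derived from the two components.
-/

open Set Filter
open scoped ContDiff Topology

noncomputable section

namespace Vale.Agent.P088.R2.H31.EP

open Vale.Agent.P088.R2.H313.Th

/-- The constants of `Θ` are nonnegative. -/
theorem thC_nonneg (j : ℕ) : 0 ≤ thC j := H313.Th.exists_thL.choose_spec.1 j

/-- Derivatives of `√R T (t / √R)`. -/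
theorem iter_sc {T : ℝ → ℝ} (hT : ContDiff ℝ ∞ T) {a : ℝ} (j : ℕ) (t : ℝ) :
    iteratedDeriv j (fun t => a * T (t / a)) t = a * (a⁻¹) ^ j * iteratedDeriv j T (t / a) := by
  have e : (fun t => a * T (t / a)) = fun t => a * T (a⁻¹ * t) := by
    funext t; rw [div_eq_inv_mul]
  rw [e, iteratedDeriv_const_mul_field, iteratedDeriv_comp_const_mul (hT.of_le (by exact_mod_cast le_top))]
  rw [div_eq_inv_mul, ← mul_assoc]

variable {n : ℕ} {q : Cst} {d : Pk n}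

/-- The size of the onset of the slow component. -/
def Cst.tny (q : Cst) : ℝ := q.R ^ 4 * Real.exp (1 - 4 / 100 * √q.R)

/-- The size of the onset of the fast component. -/
def Cst.tnL (q : Cst) : ℝ := q.A₄ * Real.exp (-(q.L₄ * (3 / 10 * q.R / 2 - 1)))

theorem PkOk.Θj (h : PkOk q d) (j : ℕ) (t : ℝ) : iteratedDeriv j d.Θ t =
    iteratedDeriv j d.ΘL t + √q.R * (√q.R)⁻¹ ^ j * iteratedDeriv j d.ΘT (t / √q.R) := by
  have h1 : ContDiff ℝ ∞ fun t => √q.R * d.ΘT (t / √q.R) :=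
    contDiff_const.mul (h.ts.sm.comp (contDiff_id.div_const _))
  rw [h.Θe]
  have e : (fun t => d.ΘL t + √q.R * d.ΘT (t / √q.R)) =
      d.ΘL + fun t => √q.R * d.ΘT (t / √q.R) := rfl
  rw [e, iteratedDeriv_add (h.th.sm.contDiffAt.of_le (by exact_mod_cast le_top))
    (h1.contDiffAt.of_le (by exact_mod_cast le_top)), iter_sc h.ts.sm]

theorem PkOk.Θd (h : PkOk q d) (hR : 0 < q.R) (t : ℝ) :
    deriv d.Θ t = deriv d.ΘL t + deriv d.ΘT (t / √q.R) := by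
  have h1 := h.Θj 1 t
  have hs : √q.R ≠ 0 := (Real.sqrt_pos.2 hR).ne'
  rwa [iteratedDeriv_one, iteratedDeriv_one, iteratedDeriv_one, pow_one,
    mul_inv_cancel₀ hs, one_mul] at h1

theorem PkOk.Θdd (h : PkOk q d) (hR : 0 < q.R) (t : ℝ) :
    deriv (deriv d.Θ) t = deriv (deriv d.ΘL) t + (√q.R)⁻¹ * deriv (deriv d.ΘT) (t / √q.R) := by
  have h1 := h.Θj 2 t
  have hs : √q.R ≠ 0 := (Real.sqrt_pos.2 hR).ne'
  have e : √q.R * (√q.R)⁻¹ ^ 2 = (√q.R)⁻¹ := by field_simp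
  rw [e] at h1
  simpa only [iteratedDeriv_succ, iteratedDeriv_one, iteratedDeriv_zero] using h1

theorem PkOk.Θnn (h : PkOk q d) (t : ℝ) : 0 ≤ d.Θ t := by
  rw [h.Θe]
  exact add_nonneg (h.th.nn _) (mul_nonneg (Real.sqrt_nonneg _) (h.ts.nn _))

theorem PkOk.Θd0 (h : PkOk q d) (hR : 0 < q.R) (t : ℝ) : 0 ≤ deriv d.Θ t := by
  rw [h.Θd hR]
  exact add_nonneg (h.th.d0 _) (h.ts.d0 _)

theorem PkOk.Θd1 (h : PkOk q d) (hR : 0 < q.R) (t : ℝ) : deriv d.Θ t ≤ q.A₄ + q.R ^ 4 := by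
  rw [h.Θd hR]
  exact add_le_add (h.th.d1 _) (h.ts.d1 _)

theorem PkOk.Θcv (h : PkOk q d) (hR : 0 < q.R) (t : ℝ) : 0 ≤ deriv (deriv d.Θ) t := by
  rw [h.Θdd hR]
  exact add_nonneg (h.th.cv _) (mul_nonneg (inv_nonneg.2 (Real.sqrt_nonneg _)) (h.ts.cv _))

theorem PkOk.Θcp (h : PkOk q d) (hR : 0 < q.R) (t : ℝ) (ht : d.l₀ q + 26 / 10 * q.R < t) :
    0 < deriv (deriv d.Θ) t := by
  rw [h.Θdd hR]
  exact add_pos_of_pos_of_nonneg (h.th.cp _ ht)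
    (mul_nonneg (inv_nonneg.2 (Real.sqrt_nonneg _)) (h.ts.cv _))

/-- The slope is at least `A₄ / 2` from `l₀ + 2.9 R` on. -/
theorem PkOk.Θtop (h : PkOk q d) (hR : 0 < q.R) (t : ℝ) (ht : d.l₀ q + 29 / 10 * q.R ≤ t) :
    q.A₄ / 2 ≤ deriv d.Θ t := by
  rw [h.Θd hR]
  have h1 := h.th.top t (by linarith)
  have h2 := h.ts.d0 (t / √q.R)
  linarith

/-- The slow component is at least `R ^ 4 / 2` from `l₀ + 2.68 R` on. -/
theorem PkOk.Θtop4 (h : PkOk q d) (hR : 0 < q.R) (t : ℝ) (ht : d.l₀ q + 268 / 100 * q.R ≤ t) :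
    q.R ^ 4 / 2 ≤ deriv d.Θ t := by
  rw [h.Θd hR]
  have hs : 0 < √q.R := Real.sqrt_pos.2 hR
  have hss : √q.R * √q.R = q.R := Real.mul_self_sqrt hR.le
  have h1 := h.ts.top (t / √q.R) (by
    rw [le_div_iff₀ hs, add_mul, div_mul_cancel₀ _ hs.ne']
    have : 8 / 100 * √q.R * √q.R = 8 / 100 * q.R := by rw [mul_assoc, hss]
    linarith)
  have h2 := h.th.d0 t
  linarith

/-- All derivatives of order `≥ 1`. -/
theorem PkOk.Θbd (h : PkOk q d) (hR0 : 0 < q.R) (j : ℕ) (t : ℝ) :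
    |iteratedDeriv (j + 1) d.Θ t| ≤ thC j * (q.L₄ ^ j * q.A₄ + (√q.R)⁻¹ ^ j * q.R ^ 4) := by
  have hs : 0 < √q.R := Real.sqrt_pos.2 hR0
  have h1 := h.th.bd j t
  have h2 := h.ts.bd j (t / √q.R)
  rw [h.Θj]
  have e : √q.R * (√q.R)⁻¹ ^ (j + 1) = (√q.R)⁻¹ ^ j := by
    rw [pow_succ]; field_simp
  rw [e]
  refine (abs_add_le _ _).trans ?_
  rw [abs_mul, abs_of_nonneg (pow_nonneg (inv_nonneg.2 hs.le) _)]
  have h3 : (√q.R)⁻¹ ^ j * |iteratedDeriv (j + 1) d.ΘT (t / √q.R)| ≤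
      (√q.R)⁻¹ ^ j * (thC j * 1 ^ j * q.R ^ 4) := mul_le_mul_of_nonneg_left h2 (by positivity)
  rw [one_pow, mul_one] at h3
  linarith

/-- `Θ''` against `Θ'`. -/
theorem PkOk.Θup (h : PkOk q d) (hR : 1 ≤ q.R) (t : ℝ) : deriv (deriv d.Θ) t ≤
    q.L₄ * (deriv d.ΘL t + q.tnL) + (√q.R)⁻¹ * (deriv d.ΘT (t / √q.R) + q.tny) := by
  have hR0 : 0 < q.R := by linarith
  have hs : 0 < √q.R := Real.sqrt_pos.2 hR0
  rw [h.Θdd hR0]
  have h1 := h.th.up t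
  have h2 := h.ts.up (t / √q.R)
  have e : -(1 * (8 / 100 * √q.R / 2 - 1)) = 1 - 4 / 100 * √q.R := by ring
  rw [one_mul, e] at h2
  have h3 := mul_le_mul_of_nonneg_left h2 (inv_nonneg.2 hs.le)
  simp only [Cst.tny, Cst.tnL]
  linarith

/-- The onset: both components and all their derivatives are tiny for `t ≤ l₀ + 2.6 R + 1`. -/
theorem PkOk.Θon (h : PkOk q d) (hR : 1 ≤ q.R) (j : ℕ) (t : ℝ)
    (ht : t ≤ d.l₀ q + 26 / 10 * q.R + 1) :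
    |iteratedDeriv j d.Θ t| ≤ thC j * (q.L₄ ^ j * q.tnL + √q.R * q.tny) := by
  have hR0 : 0 < q.R := by linarith
  have hs : 0 < √q.R := Real.sqrt_pos.2 hR0
  have hs1 : 1 ≤ √q.R := Real.one_le_sqrt.2 hR
  rw [h.Θj]
  refine (abs_add_le _ _).trans ?_
  have h1 := h.th.on j t ht
  have h2 := h.ts.on j (t / √q.R) (by
    rw [div_le_iff₀ hs, add_mul, div_mul_cancel₀ _ hs.ne']
    linarith)
  have e : -(1 * (8 / 100 * √q.R / 2 - 1)) = 1 - 4 / 100 * √q.R := by ring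
  rw [one_pow, mul_one, e] at h2
  rw [abs_mul, abs_of_nonneg (by positivity : 0 ≤ √q.R * (√q.R)⁻¹ ^ j)]
  have h4 : (√q.R)⁻¹ ^ j ≤ 1 := pow_le_one₀ (inv_nonneg.2 hs.le) (inv_le_one_of_one_le₀ hs1)
  have h5 : √q.R * (√q.R)⁻¹ ^ j ≤ √q.R := mul_le_of_le_one_right hs.le h4
  have h6 : 0 ≤ thC j * q.tny := mul_nonneg (thC_nonneg j) (by unfold Cst.tny; positivity)
  have h7 : √q.R * (√q.R)⁻¹ ^ j * |iteratedDeriv j d.ΘT (t / √q.R)| ≤ √q.R * (thC j * q.tny) :=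
    mul_le_mul h5 h2 (abs_nonneg _) hs.le
  have h8 : thC j * q.L₄ ^ j * (q.A₄ * Real.exp (-(q.L₄ * (3 / 10 * q.R / 2 - 1)))) =
    thC j * (q.L₄ ^ j * q.tnL) := by rw [Cst.tnL]; ring
  rw [h8] at h1
  nlinarith

/-- **Log-Lipschitz, everywhere.** -/
theorem PkOk.Θll (h : PkOk q d) (hR : 1 ≤ q.R) (hL : 1 ≤ q.L₄) (j : ℕ) (t : ℝ) :
    |iteratedDeriv (j + 2) d.Θ t| ≤ (thC j + thC (j + 2)) *
      (q.L₄ ^ j * deriv (deriv d.Θ) t + q.L₄ ^ (j + 2) * q.tnL + q.tny) := by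
  have hR0 : 0 < q.R := by linarith
  have hs : 0 < √q.R := Real.sqrt_pos.2 hR0
  have hs1 : 1 ≤ √q.R := Real.one_le_sqrt.2 hR
  have hi0 : 0 ≤ (√q.R)⁻¹ := inv_nonneg.2 hs.le
  have hi1 : (√q.R)⁻¹ ≤ 1 := inv_le_one_of_one_le₀ hs1
  have hc := thC_nonneg j
  have hc2 := thC_nonneg (j + 2)
  have hA : 0 ≤ q.tnL := by unfold Cst.tnL Cst.A₄; positivity
  have hT : 0 ≤ q.tny := by unfold Cst.tny; positivity
  have hLp : 0 < q.L₄ := by linarith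
  -- the fast part
  have a1 : |iteratedDeriv (j + 2) d.ΘL t| ≤ (thC j + thC (j + 2)) *
      (q.L₄ ^ j * deriv (deriv d.ΘL) t + q.L₄ ^ (j + 2) * q.tnL) := by
    have hcv := h.th.cv t
    rcases le_total t (d.l₀ q + 26 / 10 * q.R + 1) with ht | ht
    · have h1 := h.th.on (j + 2) t ht
      have e : thC (j + 2) * q.L₄ ^ (j + 2) * (q.A₄ * Real.exp (-(q.L₄ * (3 / 10 * q.R / 2 - 1)))) =
        thC (j + 2) * (q.L₄ ^ (j + 2) * q.tnL) := by rw [Cst.tnL]; ring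
      rw [e] at h1
      have p1 : 0 ≤ q.L₄ ^ (j + 2) * q.tnL := by positivity
      have p2 : 0 ≤ q.L₄ ^ j * deriv (deriv d.ΘL) t := by positivity
      nlinarith
    · have h1 := h.th.ll j t ht
      have p1 : 0 ≤ q.L₄ ^ (j + 2) * q.tnL := by positivity
      have p2 : 0 ≤ q.L₄ ^ j * deriv (deriv d.ΘL) t := by positivity
      nlinarith
  -- the slow part
  have a2 : |√q.R * (√q.R)⁻¹ ^ (j + 2) * iteratedDeriv (j + 2) d.ΘT (t / √q.R)| ≤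
      (thC j + thC (j + 2)) * ((√q.R)⁻¹ * deriv (deriv d.ΘT) (t / √q.R) + q.tny) := by
    have hcv := h.ts.cv (t / √q.R)
    rw [abs_mul, abs_of_nonneg (by positivity : 0 ≤ √q.R * (√q.R)⁻¹ ^ (j + 2))]
    have e1 : √q.R * (√q.R)⁻¹ ^ (j + 2) = (√q.R)⁻¹ ^ (j + 1) := by
      rw [pow_succ (√q.R)⁻¹ (j + 1)]; field_simp
    rw [e1]
    have e2 : (√q.R)⁻¹ ^ (j + 1) ≤ (√q.R)⁻¹ := by
      rw [pow_succ]
      exact mul_le_of_le_one_left hi0 (pow_le_one₀ hi0 hi1)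
    have e3 : (√q.R)⁻¹ ^ (j + 1) ≤ 1 := e2.trans hi1
    have p0 : 0 ≤ (√q.R)⁻¹ ^ (j + 1) := by positivity
    rcases le_total (t / √q.R) ((d.l₀ q + 26 / 10 * q.R) / √q.R + 1) with ht | ht
    · have h1 := h.ts.on (j + 2) (t / √q.R) ht
      have e : -(1 * (8 / 100 * √q.R / 2 - 1)) = 1 - 4 / 100 * √q.R := by ring
      rw [one_pow, mul_one, e] at h1
      change |iteratedDeriv (j + 2) d.ΘT (t / √q.R)| ≤ thC (j + 2) * q.tny at h1
      have h2 : (√q.R)⁻¹ ^ (j + 1) * |iteratedDeriv (j + 2) d.ΘT (t / √q.R)| ≤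
          1 * (thC (j + 2) * q.tny) := mul_le_mul e3 h1 (abs_nonneg _) zero_le_one
      have p2 : 0 ≤ (√q.R)⁻¹ * deriv (deriv d.ΘT) (t / √q.R) := by positivity
      nlinarith
    · have h1 := h.ts.ll j (t / √q.R) ht
      rw [one_pow, mul_one] at h1
      have h2 : (√q.R)⁻¹ ^ (j + 1) * |iteratedDeriv (j + 2) d.ΘT (t / √q.R)| ≤
          (√q.R)⁻¹ * (thC j * deriv (deriv d.ΘT) (t / √q.R)) :=
        mul_le_mul e2 h1 (abs_nonneg _) hi0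
      have p2 : 0 ≤ (√q.R)⁻¹ * deriv (deriv d.ΘT) (t / √q.R) := by positivity
      nlinarith
  rw [h.Θj, h.Θdd hR0]
  refine (abs_add_le _ _).trans ((add_le_add a1 a2).trans ?_)
  have hL1 : 1 ≤ q.L₄ ^ j := one_le_pow₀ hL
  have p2 : 0 ≤ (√q.R)⁻¹ * deriv (deriv d.ΘT) (t / √q.R) := mul_nonneg hi0 (h.ts.cv _)
  have h9 : (√q.R)⁻¹ * deriv (deriv d.ΘT) (t / √q.R) ≤
      q.L₄ ^ j * ((√q.R)⁻¹ * deriv (deriv d.ΘT) (t / √q.R)) := le_mul_of_one_le_left p2 hL1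
  rw [← mul_add]
  refine mul_le_mul_of_nonneg_left ?_ (by positivity)
  linarith

end Vale.Agent.P088.R2.H31.EP
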