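import Vale.Agent.P088.R2.H31.EP.Wgt
import Vale.Agent.P088.R2.H269.X.Spec
import Vale.Agent.P088.R2.H561.S4.SpecG

/-!
# P088, stage 3, EST': the data in rate units
-/

open Set Filter MeasureTheory
open scoped ContDiff Topology Matrix

noncomputable section

namespace Vale.Agent.P088.R2.H31.EP

open Vale.Agent.P088.LR Vale.Agent.P088.HY Vale.Agent.P088.HY.T3 Vale.Agent.P088.HY.T4
open Vale.Agent.P088.R2.H464.Cu (mid dif rq)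
open Vale.Agent.P088.R2.H269 (ky)
open Vale.Agent.P088.S4 (Ivg)

variable {n : ℕ}

/-- The tensors in rate units: the touching ball has radius `R` (no potentials, `RowESTg`). -/
structure Rg (K : ℕ) (ε M σ R kap Gs : ℝ) (s₁ s₂ : MF n) : Prop where
  sm₁ : SmM s₁
  sm₂ : SmM s₂
  sy₁ : ∀ x, (s₁ x).IsSymm
  sy₂ : ∀ x, (s₂ x).IsSymm
  cl₁ : ∀ i j, ∀ m ≤ K, ∀ x,
    ‖iteratedFDeriv ℝ m (fun x => s₁ x i j - (1 : Matrix (Fin n) (Fin n) ℝ) i j) x‖ ≤ ε * R⁻¹ ^ m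
  cl₂ : ∀ i j, ∀ m ≤ K, ∀ x,
    ‖iteratedFDeriv ℝ m (fun x => s₂ x i j - (1 : Matrix (Fin n) (Fin n) ℝ) i j) x‖ ≤ ε * R⁻¹ ^ m
  of : ∀ x ∉ Eb (0 : V n) (2 * R), s₁ x = 1 ∧ s₂ x = 1
  eq : ∀ x : V n, R ^ 2 ≤ HY.sq x → s₂ x = s₁ x
  ds : ∀ i j, ∀ m ≤ K, ∀ x, ‖iteratedFDeriv ℝ m (fun x => s₂ x i j - s₁ x i j) x‖ ≤
    ε * R⁻¹ ^ m * min 1 (Real.exp (-(M * lv n σ R kap Gs x)))

/-- **EP-TOP-RD** (helper871). From the unit chart to rate units. -/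
def RowRD : Prop := ∀ n : ℕ, 3 ≤ n → ∀ (K : ℕ) (ε M ν : ℝ), 0 < ε → 0 ≤ M → 2 * M ≤ ν →
  ∃ R₀ : ℝ, 1 ≤ R₀ ∧ ∀ (σ : ℝ) (s₁ s₂ : MF n), 0 < σ → σ ≤ 1 / 10 → Ivg K (ε / 2) s₁ s₂ →
    ∀ R kap Gs η C : ℝ, R₀ ≤ R → η ≤ 1 / 10 → -η ≤ Gs → Gs ≤ 0 → 1 ≤ C →
    R ^ C ≤ kap → kap ≤ Real.exp (η * R) →
    (∀ y ∈ Ac n (1 / 22) 1, 1 ≤ ky n σ R kap Gs y → ∀ i j, ∀ l ≤ K,
      ‖iteratedFDeriv ℝ l (fun x => s₂ x i j - s₁ x i j) y‖ ≤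
        kap ^ (-(1 / 2) : ℝ) * ky n σ R kap Gs y ^ (-(ν / 2))) →
    Rg K ε M σ R kap Gs (rM R s₁) (rM R s₂)

/-- **EP-TOP-SC** (helper794). The estimate in rate units gives the estimate in the unit chart. -/
def RowSC : Prop := ∀ n : ℕ, ∀ (s₁ s₂ : MF n) (v₁ v₂ : V n → ℝ) (W w : VV n → ℝ) (R c Mw : ℝ),
  SmM s₁ → SmM s₂ → ContDiff ℝ ∞ v₁ → ContDiff ℝ ∞ v₂ → ContDiff ℝ ∞ W → 0 < R →
  R2.H269.EstP (rM R s₁) (rM R s₂) (rV R v₁) (rV R v₂) W w Mw →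
  R2.H269.EstP s₁ s₂ v₁ v₂ (fun z => W (R • z) - c) (fun z => R ^ 4 * w (R • z)) Mw

end Vale.Agent.P088.R2.H31.EP
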